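import Crest.Agent.R314H.Defs

/-! Row 314, part H: the accumulated change `sig` controls the change of the parameters (**EP1**). -/

set_option autoImplicit false

namespace Crest.Agent.KS.H

open Finset
open scoped Classical

namespace EP1

variable {V : Type} [Fintype V] (T : Tr V)

theorem mem_ch {u v : V} : v ∈ T.ch u ↔ v ≠ T.root ∧ T.par v = u := by
  simp [Tr.ch]

omit [Fintype V] in
theorem ev_nonneg (a a' : V → ℝ) (v : V) : 0 ≤ ev a a' v := by
  unfold ev; split_ifs <;> norm_num

theorem eta_nonneg (a a' : V → ℝ) (u : V) : 0 ≤ eta T a a' u := by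
  unfold eta; split_ifs <;> norm_num

theorem cc_pos : 0 < cc := by unfold cc; norm_num

theorem last_nonneg {k : ℕ} {a a' : V → ℝ} (hL : 1 ≤ LL k) (ha : ∀ v, 0 ≤ a v) (ha' : ∀ v, 0 ≤ a' v)
    (u : V) : 0 ≤ cc / 16 / (a' u * LL k) * ∑ y ∈ T.ch u, ev a a' y * (a y + a' y) :=
  mul_nonneg (div_nonneg (div_nonneg cc_pos.le (by norm_num)) (mul_nonneg (ha' u) (by linarith)))
    (Finset.sum_nonneg fun y _ => mul_nonneg (ev_nonneg a a' y) (add_nonneg (ha y) (ha' y)))

theorem eps_ge {k : ℕ} {a a' : V → ℝ} (hL : 1 ≤ LL k) (ha : ∀ v, 0 ≤ a v) (ha' : ∀ v, 0 ≤ a' v)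
    (v : V) : eta T a a' (T.par v) + ev a a' v ≤ eps T k a a' v := by
  unfold eps
  have := last_nonneg T hL ha ha' (T.par v)
  split_ifs <;> linarith

end EP1

open EP1 in
theorem EP1_proof (hTree : TreeStmt) (hOne : OneStmt) : Ep1Stmt := by
  intro V _ T k a a' hk hP hP'
  obtain ⟨hind, hps, hal, -⟩ := hTree V T
  have hL : 1 ≤ LL k := hOne.1 k hk
  have ha := hP.nonneg
  have ha' := hP'.nonneg
  have heps0 : ∀ v, 0 ≤ eps T k a a' v := fun v =>
    (add_nonneg (eta_nonneg T a a' _) (ev_nonneg a a' v)).trans (eps_ge T hL ha ha' v)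
  have hsig0 : ∀ v, 0 ≤ sig T k a a' v := fun v => by
    unfold sig ps
    exact Finset.sum_nonneg fun n _ => heps0 _
  have hsig : ∀ v, v ≠ T.root → sig T k a a' v = eps T k a a' v + sig T k a a' (T.par v) :=
    (hps (eps T k a a')).2
  have hsigp : ∀ v, sig T k a a' (T.par v) ≤ sig T k a a' v := by
    intro v
    by_cases hv : v = T.root
    · rw [hv, T.par_root]
    · rw [hsig v hv]; linarith [heps0 v]
  have hev : ∀ v, v ≠ T.root → a v ≠ a' v → 1 ≤ sig T k a a' v := by
    intro v hv h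
    have h1 := eps_ge T hL ha ha' v
    have h2 : ev a a' v = 1 := by simp [ev, h]
    rw [hsig v hv]
    linarith [eta_nonneg T a a' (T.par v), hsig0 (T.par v)]
  have heta : ∀ v, v ≠ T.root → al T a (T.par v) → al T a' (T.par v) →
      ¬ (a (T.par v) = a' (T.par v) ∧ ∀ y ∈ T.ch (T.par v), (hv T a y ↔ hv T a' y)) →
      1 ≤ eps T k a a' v := by
    intro v _ h1 h2 h3
    have h4 := eps_ge T hL ha ha' v
    have h5 : eta T a a' (T.par v) = 1 := by
      unfold eta; rw [if_pos ⟨h1, h2, h3⟩]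
    linarith [ev_nonneg a a' v]
  have heta' : ∀ v, v ≠ T.root → al T a (T.par v) → al T a' (T.par v) →
      ¬ (a (T.par v) = a' (T.par v) ∧ ∀ y ∈ T.ch (T.par v), (hv T a y ↔ hv T a' y)) →
      1 ≤ sig T k a a' v := by
    intro v hv h1 h2 h3
    rw [hsig v hv]
    linarith [heta v hv h1 h2 h3, hsig0 (T.par v)]
  have h3 : ∀ v, ¬ (al T a v ↔ al T a' v) → 1 ≤ sig T k a a' v := by
    refine hind _ (fun h => absurd (iff_of_true hP.root hP'.root) h) fun v hv ih h => ?_
    by_cases hp : al T a (T.par v) ↔ al T a' (T.par v)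
    · refine hev v hv fun he => h ?_
      rw [hal a v, hal a' v, he, hp]
    · exact (ih hp).trans (hsigp v)
  -- change of `ee`
  have hee : ∀ v, v ≠ T.root → al T a v → al T a' v →
      |ee T k a' v - ee T k a v| ≤ eps T k a a' v := by
    intro v hvr h1 h2
    have h1p := ((hal a v).1 h1).2
    have h2p := ((hal a' v).1 h2).2
    have hone : |ee T k a' v - ee T k a v| ≤ 1 := by
      have := hP.e01 v
      have := hP'.e01 v
      rw [abs_le]; constructor <;> linarith
    by_cases hb : a (T.par v) = a' (T.par v) ∧ ∀ y ∈ T.ch (T.par v), (hv T a y ↔ hv T a' y)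
    swap
    · exact hone.trans (heta v hvr h1p h2p hb)
    by_cases hav : a v = a' v
    swap
    · have h4 := eps_ge T hL ha ha' v
      have h5 : ev a a' v = 1 := by simp [ev, hav]
      linarith [eta_nonneg T a a' (T.par v)]
    obtain ⟨hu, hh⟩ := hb
    have hvc : v ∈ T.ch (T.par v) := (mem_ch T).2 ⟨hvr, rfl⟩
    by_cases hhv : hv T a v
    · have hhv' : hv T a' v := (hh v hvc).1 hhv
      have e1 : ee T k a v = DD T k a (T.par v) := by
        unfold ee; rw [if_neg (fun h => h.2.2 hhv), if_pos hhv]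
      have e2 : ee T k a' v = DD T k a' (T.par v) := by
        unfold ee; rw [if_neg (fun h => h.2.2 hhv'), if_pos hhv']
      have e3 : cc / 16 / (a' (T.par v) * LL k) *
          ∑ y ∈ T.ch (T.par v), ev a a' y * (a y + a' y) ≤ eps T k a a' v := by
        unfold eps
        rw [if_pos ⟨hhv, hhv'⟩]
        linarith [eta_nonneg T a a' (T.par v), ev_nonneg a a' v]
      refine le_trans ?_ e3
      rw [e1, e2]
      unfold DD
      rw [← Finset.sum_sub_distrib, Finset.mul_sum]
      refine (Finset.abs_sum_le_sum_abs _ _).trans (Finset.sum_le_sum fun y hy => ?_)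
      obtain ⟨hyr, hyp⟩ := (mem_ch T).1 hy
      have hc0 : 0 ≤ cc / 16 / (a' (T.par v) * LL k) :=
        div_nonneg (div_nonneg cc_pos.le (by norm_num)) (mul_nonneg (ha' _) (by linarith))
      have d1 : dd T k a y = cc / 16 / (a' (T.par v) * LL k) * a y := by
        unfold dd; rw [hyp, hu]; ring
      have d2 : dd T k a' y = cc / 16 / (a' (T.par v) * LL k) * a' y := by
        unfold dd; rw [hyp]; ring
      by_cases hay : a y = a' y
      · have hlt : lt T a y ↔ lt T a' y := by
          unfold lt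
          rw [hal a y, hal a' y, hyp, hay, hh y hy, iff_true_intro h1p, iff_true_intro h2p]
        have : (if lt T a' y then dd T k a' y else 0) - (if lt T a y then dd T k a y else 0) = 0 := by
          rw [d1, d2, hay]
          by_cases hl : lt T a y
          · rw [if_pos hl, if_pos (hlt.1 hl), sub_self]
          · rw [if_neg hl, if_neg (fun h => hl (hlt.2 h)), sub_self]
        rw [this, abs_zero]
        exact mul_nonneg hc0 (mul_nonneg (ev_nonneg a a' y) (add_nonneg (ha y) (ha' y)))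
      · have h5 : ev a a' y = 1 := by simp [ev, hay]
        have p1 := mul_nonneg hc0 (ha y)
        have p2 := mul_nonneg hc0 (ha' y)
        rw [h5, one_mul, mul_add, d1, d2, abs_le]
        constructor <;> split_ifs <;> linarith
    · have hhv' : ¬ hv T a' v := fun h => hhv ((hh v hvc).2 h)
      have e1 : ee T k a' v = ee T k a v := by
        unfold ee
        rw [if_pos (show lt T a' v from ⟨hvr, h2, hhv'⟩), if_pos (show lt T a v from ⟨hvr, h1, hhv⟩),
          hu, hav]
      rw [e1, sub_self, abs_zero]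
      exact heps0 v
  refine ⟨fun v => ⟨heps0 v, hsig0 v, hsigp v⟩, ?_, h3, fun v hl hk' => ?_, fun u hy v hvu => ?_⟩
  · refine hind _ (fun _ _ => ?_) fun v hvr ih h1 h2 => ?_
    · unfold ss
      rw [(hps _).1, (hps _).1, sub_self, abs_zero]
      linarith [hsig0 T.root]
    · have h4 := ih ((hal a v).1 h1).2 ((hal a' v).1 h2).2
      have h5 := hee v hvr h1 h2
      unfold ss at h4 ⊢
      rw [(hps _).2 v hvr, (hps _).2 v hvr, hsig v hvr]
      rw [abs_le] at h4 h5 ⊢
      constructor <;> linarith [h4.1, h4.2, h5.1, h5.2]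
  · have hvr : v ≠ T.root := hl.elim (fun h => h.1) (fun h => h.1)
    by_cases hiff : al T a v ↔ al T a' v
    swap
    · exact h3 v hiff
    have h1 : al T a v := hl.elim (fun h => h.2.1) (fun h => hiff.2 h.2.1)
    have h2 : al T a' v := hiff.1 h1
    by_cases hb : a (T.par v) = a' (T.par v) ∧ ∀ y ∈ T.ch (T.par v), (hv T a y ↔ hv T a' y)
    swap
    · exact heta' v hvr ((hal a v).1 h1).2 ((hal a' v).1 h2).2 hb
    have hh := hb.2 v ((mem_ch T).2 ⟨hvr, rfl⟩)
    have hn : ¬ hv T a v := hl.elim (fun h => h.2.2) (fun h h' => h.2.2 (hh.1 h'))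
    refine hev v hvr fun he => hk' ⟨⟨hvr, h1, hn⟩, ⟨hvr, h2, fun h => hn (hh.2 h)⟩, he, hb.1⟩
  · obtain ⟨y, hyu, hy⟩ := hy
    obtain ⟨hvr, hvp⟩ := (mem_ch T).1 hvu
    obtain ⟨hyr, hyp⟩ := (mem_ch T).1 hyu
    by_cases hiff : al T a u ↔ al T a' u
    · have h1 : al T a u := by
        by_contra hn
        refine hy (iff_of_false (fun h => hn ?_) (fun h => hn (hiff.2 ?_)))
        · rw [← hyp]; exact ((hal a y).1 h.1.2.1).2
        · rw [← hyp]; exact ((hal a' y).1 h.1.2.1).2
      refine heta' v hvr (hvp ▸ h1) (hvp ▸ hiff.1 h1) fun h => hy (h.2 y (hvp ▸ hyu))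
    · exact (h3 u hiff).trans (hvp ▸ hsigp v)

end Crest.Agent.KS.H
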