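import Crest.Agent.R314H.Defs

/-! Row 314, part H, task EPS. -/

set_option autoImplicit false

namespace Crest.Agent.KS.H

open Finset
open scoped Classical

namespace EPS

variable {V : Type} [Fintype V] (T : Tr V)

theorem mem_ch {u v : V} : v ∈ T.ch u ↔ v ≠ T.root ∧ T.par v = u := by
  simp [Tr.ch]

omit [Fintype V] in
theorem ev_nonneg (a a' : V → ℝ) (v : V) : 0 ≤ ev a a' v := by
  unfold ev; split_ifs <;> norm_num

theorem eta_bound (hTree : TreeStmt) (a a' : V → ℝ) (ha : ∀ v, 0 ≤ a v) (ha' : ∀ v, 0 ≤ a' v)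
    (u : V) : eta T a a' u * a' u ≤ ev a a' u * (a u + a' u) +
      16 * ∑ y ∈ T.ch u, ev a a' y * (a y + a' y) := by
  have hal := (hTree V T).2.2.1
  have hE : ∀ y, 0 ≤ ev a a' y * (a y + a' y) := fun y =>
    mul_nonneg (ev_nonneg a a' y) (add_nonneg (ha y) (ha' y))
  have hS : 0 ≤ ∑ y ∈ T.ch u, ev a a' y * (a y + a' y) := Finset.sum_nonneg fun y _ => hE y
  unfold eta
  split_ifs with h
  · obtain ⟨h1, h2, h3⟩ := h
    by_cases hu : a u = a' u
    · have hne : ¬ ∀ y, (cand T a u y ↔ cand T a' u y) := by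
        intro hall
        apply h3
        refine ⟨hu, fun y hy => ?_⟩
        have hp : T.par y = u := ((mem_ch T).1 hy).2
        have hf : cand T a u = cand T a' u := funext fun y => propext (hall y)
        unfold hv
        rw [hp, hf]
      obtain ⟨y, hy⟩ := not_forall.1 hne
      have hych : y ∈ T.ch u := by
        by_contra hn
        exact hy ⟨fun hc => absurd hc.1 hn, fun hc => absurd hc.1 hn⟩
      have hp : T.par y = u := ((mem_ch T).1 hych).2
      have hay : a y ≠ a' y := by
        intro he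
        apply hy
        unfold cand
        rw [hal a y, hal a' y, hp, he, hu]
        constructor
        · rintro ⟨x1, ⟨x2, _⟩, x4⟩
          exact ⟨x1, ⟨x2, h2⟩, x4⟩
        · rintro ⟨x1, ⟨x2, _⟩, x4⟩
          exact ⟨x1, ⟨x2, h1⟩, x4⟩
      have hle : a' u ≤ 16 * (a y + a' y) := by
        by_cases hc : cand T a u y
        · have := hc.2.2
          have := ha' y
          linarith
        · have hc' : cand T a' u y := by
            by_contra hn
            exact hy ⟨fun x => absurd x hc, fun x => absurd x hn⟩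
          have := hc'.2.2
          have := ha y
          linarith
      have hy1 : ev a a' y * (a y + a' y) ≤ ∑ y ∈ T.ch u, ev a a' y * (a y + a' y) :=
        Finset.single_le_sum (f := fun y => ev a a' y * (a y + a' y)) (fun y _ => hE y) hych
      have hev : ev a a' y = 1 := by unfold ev; rw [if_neg hay]
      rw [hev] at hy1
      have := hE u
      linarith
    · have hev : ev a a' u = 1 := by unfold ev; rw [if_neg hu]
      rw [hev]
      have := ha u
      linarith
  · have := hE u
    linarith

end EPS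

theorem EPS_proof (hTree : TreeStmt) (hOne : OneStmt) : EpsStmt := by
  intro V _ T k τ wt a a' Y hk hτ hW ha hY hS
  have ha' : ∀ v, 0 ≤ a' v := fun v => (hY v).1.trans (hY v).2
  have hL : 1 ≤ LL k := hOne.1 k hk
  obtain ⟨-, -, -, -, hnr, huniv, -⟩ := hTree V T
  set E : V → ℝ := fun v => ev a a' v * (a v + a' v) with hEdef
  have hE : ∀ y, 0 ≤ E y := fun y =>
    mul_nonneg (EPS.ev_nonneg a a' y) (add_nonneg (ha y) (ha' y))
  have hτ0 : 0 < τ := by linarith
  have hwt : ∀ u, ∀ v ∈ T.ch u, wt v = wt u / τ := by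
    intro u v hv
    obtain ⟨h1, h2⟩ := (EPS.mem_ch T).1 hv
    rw [← h2, ← hW.2 v h1]
    field_simp
  have node : ∀ u, ∑ v ∈ T.ch u, wt v * (eps T k a a' v * Y v) ≤
      wt u * E u / 16 + 18 * ∑ v ∈ T.ch u, wt v * E v := by
    intro u
    have hw0 : 0 < wt u / τ := div_pos (hW.1 u) hτ0
    set S : ℝ := ∑ y ∈ T.ch u, E y with hSdef
    have hS0 : 0 ≤ S := Finset.sum_nonneg fun y _ => hE y
    set c : ℝ := cc / 16 / (a' u * LL k) with hc
    have hc0 : 0 ≤ c := by
      apply div_nonneg
      · unfold cc; norm_num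
      · exact mul_nonneg (ha' u) (by linarith)
    have hca : c * a' u ≤ 1 := by
      rcases (ha' u).eq_or_lt with h0 | h0
      · rw [← h0]; norm_num
      · have hL0 : 0 < LL k := by linarith
        have : c * a' u = cc / 16 / LL k := by
          rw [hc]; field_simp
        rw [this, div_le_one hL0]
        unfold cc; linarith
    have heta0 : 0 ≤ eta T a a' u := by unfold eta; split_ifs <;> norm_num
    have hterm : ∀ v ∈ T.ch u, wt v * (eps T k a a' v * Y v) ≤
        wt u / τ * ((eta T a a' u + c * S) * Y v + E v) := by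
      intro v hv
      have hp : T.par v = u := ((EPS.mem_ch T).1 hv).2
      rw [hwt u v hv]
      apply mul_le_mul_of_nonneg_left _ hw0.le
      have h1 : ev a a' v * Y v ≤ E v := by
        apply mul_le_mul_of_nonneg_left _ (EPS.ev_nonneg a a' v)
        have := ha v; have := (hY v).2; linarith
      have h2 : eps T k a a' v ≤ eta T a a' u + ev a a' v + c * S := by
        unfold eps
        rw [hp]
        split_ifs
        · exact le_of_eq rfl
        · have := mul_nonneg hc0 hS0
          linarith
      have h3 := mul_le_mul_of_nonneg_right h2 (hY v).1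
      nlinarith
    have hsum : ∑ v ∈ T.ch u, wt v * (eps T k a a' v * Y v) ≤
        wt u / τ * ((eta T a a' u + c * S) * ∑ v ∈ T.ch u, Y v + S) := by
      refine (Finset.sum_le_sum hterm).trans (le_of_eq ?_)
      rw [← Finset.mul_sum, Finset.sum_add_distrib, ← Finset.mul_sum]
    have hYu : ∑ v ∈ T.ch u, Y v ≤ a' u := (hS u).trans (hY u).2
    have hb := EPS.eta_bound T hTree a a' ha ha' u
    have hb' : eta T a a' u * a' u ≤ E u + 16 * S := hb
    have h4 : (eta T a a' u + c * S) * ∑ v ∈ T.ch u, Y v ≤ E u + 17 * S := by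
      have h5 : (eta T a a' u + c * S) * ∑ v ∈ T.ch u, Y v ≤ (eta T a a' u + c * S) * a' u :=
        mul_le_mul_of_nonneg_left hYu (add_nonneg heta0 (mul_nonneg hc0 hS0))
      have h6 : c * a' u * S ≤ 1 * S := mul_le_mul_of_nonneg_right hca hS0
      nlinarith
    have h7 : ∑ v ∈ T.ch u, wt v * E v = wt u / τ * S := by
      rw [hSdef, Finset.mul_sum]
      exact Finset.sum_congr rfl fun v hv => by rw [hwt u v hv]
    have h8 : wt u / τ * E u ≤ wt u * E u / 16 := by
      have : wt u / τ ≤ wt u / 16 := div_le_div_of_nonneg_left (hW.1 u).le (by norm_num) hτ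
      have := mul_le_mul_of_nonneg_right this (hE u)
      linarith
    have h9 : wt u / τ * ((eta T a a' u + c * S) * ∑ v ∈ T.ch u, Y v + S) ≤
        wt u / τ * (E u + 18 * S) := mul_le_mul_of_nonneg_left (by linarith) hw0.le
    rw [h7]
    nlinarith
  rw [hnr]
  refine (Finset.sum_le_sum fun u _ => node u).trans ?_
  rw [Finset.sum_add_distrib, ← Finset.mul_sum, ← hnr (fun v => wt v * E v), ← Finset.sum_div]
  have h1 := huniv (fun v => wt v * E v)
  have h2 : 0 ≤ wt T.root * E T.root := mul_nonneg (hW.1 _).le (hE _)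
  have h3 : 0 ≤ ∑ v, wt v * E v := Finset.sum_nonneg fun v _ => mul_nonneg (hW.1 _).le (hE _)
  change (∑ v, wt v * E v) / 16 + 18 * ∑ v ∈ T.nr, wt v * E v ≤ 19 * ∑ v, wt v * E v
  linarith

end Crest.Agent.KS.H
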