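import Crest.Agent.R314H.Defs

/-! Row 314, part H: feasibility of the masses (FEAS). -/

set_option autoImplicit false

namespace Crest.Agent.KS.H

open Finset
open scoped Classical

namespace FEAS

variable {V : Type} [Fintype V] {T : Tr V} {k : ℕ} {p : V → Fin k → ℝ} {s : St V k}

theorem mem_ch {u v : V} : v ∈ T.ch u ↔ v ≠ T.root ∧ T.par v = u := by
  simp [Tr.ch]

theorem gt_nonneg (hOne : OneStmt) (h : Inv T p s) (v : V) : 0 ≤ gt T p s.r s.a v := by
  unfold gt
  split_ifs
  · exact (((hOne.2.2.2.2.2.2 V k p s.r v (h.good.p01 v)).2 (h.rb v)).2.2.2 _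
      (h.par.s01 _).1 (h.par.s01 _).2).2.1
  · exact le_rfl

theorem GG_nonneg (hOne : OneStmt) (h : Inv T p s) (u : V) : 0 ≤ GG T p s.r s.a u :=
  Finset.sum_nonneg (fun v _ => gt_nonneg hOne h v)

theorem DD_nonneg (h : Inv T p s) (u : V) : 0 ≤ DD T k s.a u := by
  unfold DD
  refine Finset.sum_nonneg (fun v _ => ?_)
  split_ifs with hl
  · exact (h.par.light v hl).2.1.le
  · exact le_rfl

theorem qt_nonneg (h : Inv T p s) (v : V) : 0 ≤ qt T s.a s.q v := by
  unfold qt
  split_ifs
  · exact le_max_left _ _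
  · exact h.qok.nonneg v

theorem dfc_nonneg (u : V) (x : ℝ) : 0 ≤ dfc T s u x := le_max_right _ _

theorem ZZ_supA (h : Inv T p s) (u : V) (x : ℝ) (h0 : 0 ≤ x) (h1 : x ≤ 1) :
    ∑ y ∈ T.ch u, ZZ p x y ≤ ZZ p x u := by
  have e : ∀ y, ZZ p x y = (1 - x) * ∑ i, p y i ^ 2 + x * ∑ i, p y i ^ 3 := by
    intro y
    unfold ZZ
    rw [Finset.sum_add_distrib, Finset.mul_sum, Finset.mul_sum]
  simp only [e]
  rw [Finset.sum_add_distrib, ← Finset.mul_sum, ← Finset.mul_sum]
  have h2 := h.good.sq u
  have h3 := h.good.cu u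
  have h4 := mul_le_mul_of_nonneg_left h2 (sub_nonneg.2 h1)
  have h5 := mul_le_mul_of_nonneg_left h3 h0
  linarith

theorem key (hOne : OneStmt) (h : Inv T p s) (u : V) :
    GG T p s.r s.a u ≤ (∑ y ∈ T.ch u, s.q y) * GG T p s.r s.a u +
      ∑ y ∈ T.ch u, if hv T s.a y then (1 + DD T k s.a u) * gt T p s.r s.a y else 0 := by
  have hG := GG_nonneg hOne h u
  have hD := DD_nonneg h u
  have hterm : ∀ y ∈ T.ch u, (1 + DD T k s.a u) * gt T p s.r s.a y -
      (if lt T s.a y then dd T k s.a y else 0) * GG T p s.r s.a u ≤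
      s.q y * GG T p s.r s.a u +
        if hv T s.a y then (1 + DD T k s.a u) * gt T p s.r s.a y else 0 := by
    intro y hy
    obtain ⟨hy1, hy2⟩ := mem_ch.1 hy
    have hg := gt_nonneg hOne h y
    have hq := h.qok.nonneg y
    by_cases hl : lt T s.a y
    · rw [if_pos hl, if_neg hl.2.2]
      have hb := (h.band y hl).1
      have hd := (h.par.light y hl).2.2.1
      rw [hy2] at hb hd
      have := mul_le_mul_of_nonneg_right hd hg
      linarith
    · rw [if_neg hl]
      have hqG := mul_nonneg hq hG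
      by_cases hh : hv T s.a y
      · rw [if_pos hh]
        linarith
      · rw [if_neg hh]
        have hna : ¬ al T s.a y := fun ha => hl ⟨hy1, ha, hh⟩
        have : gt T p s.r s.a y = 0 := by
          unfold gt
          rw [if_neg hna]
        rw [this]
        linarith
  have hs := Finset.sum_le_sum hterm
  rw [Finset.sum_sub_distrib, Finset.sum_add_distrib, ← Finset.mul_sum, ← Finset.sum_mul,
    ← Finset.sum_mul] at hs
  have e1 : ∑ y ∈ T.ch u, gt T p s.r s.a y = GG T p s.r s.a u := rfl
  have e2 : (∑ y ∈ T.ch u, if lt T s.a y then dd T k s.a y else 0) = DD T k s.a u := rfl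
  rw [e1, e2] at hs
  linarith

theorem dfc_le (hTree : TreeStmt) (hOne : OneStmt) (h : Inv T p s) (u : V)
    (hP : (al T s.a u → ZZ p (ss T k s.a u) u ≤ zz T s u) ∧ (¬ al T s.a u → zz T s u = 0)) :
    dfc T s u (zz T s u) ≤ GG T p s.r s.a u := by
  have hG := GG_nonneg hOne h u
  unfold dfc
  refine max_le ?_ hG
  by_cases ha : al T s.a u
  · have h1 := hP.1 ha
    have h2 := ZZ_supA h u _ (h.par.s01 u).1 (h.par.s01 u).2
    have h3 : ∑ y ∈ T.ch u, (rt T s.r s.a y - ZZ p (ss T k s.a u) y) ≤ GG T p s.r s.a u := by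
      unfold GG
      refine Finset.sum_le_sum (fun y hy => ?_)
      obtain ⟨_, hy2⟩ := mem_ch.1 hy
      unfold rt gt
      rw [hy2]
      split_ifs
      · exact le_rfl
      · have := (((hOne.2.2.2.2.2.2 V k p s.r y (h.good.p01 y)).2 (h.rb y)).2.2.2 _
          (h.par.s01 u).1 (h.par.s01 u).2).1
        linarith
    rw [Finset.sum_sub_distrib] at h3
    linarith
  · rw [hP.2 ha]
    have : ∑ y ∈ T.ch u, rt T s.r s.a y = 0 := by
      refine Finset.sum_eq_zero (fun y hy => ?_)
      obtain ⟨_, hy2⟩ := mem_ch.1 hy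
      unfold rt
      rw [if_neg]
      intro hy
      have := (((hTree V T).2.2.1 s.a y).1 hy).2
      rw [hy2] at this
      exact ha this
    rw [this]
    linarith

theorem qtG (hTree : TreeStmt) (hOne : OneStmt) (h : Inv T p s) (v : V) (hv0 : v ≠ T.root)
    (ha : al T s.a v) :
    qt T s.a s.q v * GG T p s.r s.a (T.par v) ≤ (1 + ee T k s.a v) * gt T p s.r s.a v := by
  by_cases hh : hv T s.a v
  · have hnl : ¬ lt T s.a v := fun hl => hl.2.2 hh
    have he : ee T k s.a v = DD T k s.a (T.par v) := by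
      unfold ee
      rw [if_neg hnl, if_pos hh]
    have hk := key hOne h (T.par v)
    have hmem : v ∈ T.ch (T.par v) := mem_ch.2 ⟨hv0, rfl⟩
    rw [Finset.sum_eq_single_of_mem v hmem (f := fun y => if hv T s.a y then
      (1 + DD T k s.a (T.par v)) * gt T p s.r s.a y else 0), if_pos hh] at hk
    · have hG := GG_nonneg hOne h (T.par v)
      have hD := DD_nonneg h (T.par v)
      have hg := gt_nonneg hOne h v
      unfold qt
      rw [if_pos hh, he]
      rcases le_total 0 (1 - ∑ y ∈ T.ch (T.par v), s.q y) with hc | hc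
      · rw [max_eq_right hc]
        linarith
      · rw [max_eq_left hc, zero_mul]
        positivity
    · intro y hy hne
      rw [if_neg]
      intro hy'
      exact hne ((hTree V T).2.2.2.2.2.2.1 s.a y v hy' hh (mem_ch.1 hy).2)
  · have hl : lt T s.a v := ⟨hv0, ha, hh⟩
    unfold qt
    rw [if_neg hh]
    exact (h.band v hl).2

theorem main (hTree : TreeStmt) (hOne : OneStmt) (h : Inv T p s) (v : V) :
    (al T s.a v → ZZ p (ss T k s.a v) v ≤ zz T s v) ∧ (¬ al T s.a v → zz T s v = 0) := by
  refine (hTree V T).1 (fun v => (al T s.a v → ZZ p (ss T k s.a v) v ≤ zz T s v) ∧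
    (¬ al T s.a v → zz T s v = 0)) ?_ ?_ v
  · refine ⟨fun _ => ?_, fun hn => absurd h.par.root hn⟩
    rw [((hTree V T).2.2.2.1 k s).1]
    unfold ZZ
    simp [h.good.root]
  · intro v hv0 hP
    have hz := ((hTree V T).2.2.2.1 k s).2 v hv0
    have hd := dfc_le hTree hOne h (T.par v) hP
    refine ⟨fun ha => ?_, fun ha => ?_⟩
    · have hq := qtG hTree hOne h v hv0 ha
      have hq0 := qt_nonneg h v
      have h1 := mul_le_mul_of_nonneg_left hd hq0
      have hO := hOne.2.2.2.2.2.2 V k p s.r v (h.good.p01 v)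
      have hss : ss T k s.a v = ss T k s.a (T.par v) + 9 * ee T k s.a v := by
        unfold ss
        rw [((hTree V T).2.1 (ee T k s.a)).2 v hv0]
        ring
      have hg : gt T p s.r s.a v = MM s.r v - ZZ p (ss T k s.a (T.par v)) v := by
        unfold gt
        rw [if_pos ha]
      have hr : rt T s.r s.a v = MM s.r v := by
        unfold rt
        rw [if_pos ha]
      have hg9 := ((hO.2 (h.rb v)).2.2.2 _ (h.par.s01 (T.par v)).1 (h.par.s01 (T.par v)).2).2.2
      rw [← hg] at hg9
      have he := (h.par.e01 v).1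
      have h2 := mul_le_mul_of_nonneg_left hg9 he
      have h3 := hO.1.2.2 (ss T k s.a v)
      have h4 := hO.1.2.2 (ss T k s.a (T.par v))
      rw [hz, hr, h3, hss]
      rw [h4] at hg
      nlinarith
    · have hr : rt T s.r s.a v = 0 := by
        unfold rt
        rw [if_neg ha]
      have hq : qt T s.a s.q v = 0 := by
        unfold qt
        rw [if_neg (fun hh => ha hh.1.2.1)]
        exact h.qok.zero v (fun hl => ha hl.2.1)
      rw [hz, hr, hq]
      ring

end FEAS

open FEAS in
theorem FEAS_proof (hTree : TreeStmt) (hOne : OneStmt) : FeasStmt := by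
  intro V _ T k p s h
  have hdf : ∀ u, dfc T s u (zz T s u) ≤ GG T p s.r s.a u :=
    fun u => dfc_le hTree hOne h u (main hTree hOne h u)
  refine ⟨fun u => ?_, fun v => ⟨?_, ?_⟩, fun v i hi => ?_, hdf⟩
  · have e : ∑ y ∈ T.ch u, zz T s y =
        ∑ y ∈ T.ch u, rt T s.r s.a y - (∑ y ∈ T.ch u, qt T s.a s.q y) * dfc T s u (zz T s u) := by
      rw [Finset.sum_mul, ← Finset.sum_sub_distrib]
      refine Finset.sum_congr rfl (fun y hy => ?_)
      obtain ⟨hy1, hy2⟩ := mem_ch.1 hy
      rw [((hTree V T).2.2.2.1 k s).2 y hy1, hy2]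
    rw [e]
    have hd0 := dfc_nonneg (T := T) (s := s) u (zz T s u)
    have hd1 : ∑ y ∈ T.ch u, rt T s.r s.a y - zz T s u ≤ dfc T s u (zz T s u) := le_max_left _ _
    rcases le_or_gt 1 (∑ y ∈ T.ch u, qt T s.a s.q y) with hc | hc
    · have := mul_le_mul_of_nonneg_right hc hd0
      linarith
    · have hno : ∀ y ∈ T.ch u, ¬ hv T s.a y := by
        intro y hy hh
        have hq0 : s.q y = 0 := h.qok.zero y (fun hl => hl.2.2 hh)
        have h1 : ∑ x ∈ T.ch u, (s.q x + if x = y then 1 - ∑ z ∈ T.ch u, s.q z else 0) ≤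
            ∑ x ∈ T.ch u, qt T s.a s.q x := by
          refine Finset.sum_le_sum (fun x hx => ?_)
          by_cases hxy : x = y
          · subst hxy
            unfold qt
            rw [if_pos rfl, if_pos hh, hq0, (mem_ch.1 hx).2, zero_add]
            exact le_max_right _ _
          · rw [if_neg hxy, add_zero]
            unfold qt
            rw [if_neg]
            intro hx'
            exact hxy ((hTree V T).2.2.2.2.2.2.1 s.a x y hx' hh
              ((mem_ch.1 hx).2.trans (mem_ch.1 hy).2.symm))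
        rw [Finset.sum_add_distrib, Finset.sum_ite_eq' (T.ch u) y, if_pos hy] at h1
        linarith
      have hqq : ∑ y ∈ T.ch u, qt T s.a s.q y = ∑ y ∈ T.ch u, s.q y :=
        Finset.sum_congr rfl (fun y hy => by
          unfold qt
          rw [if_neg (hno y hy)])
      have hk := key hOne h u
      rw [Finset.sum_eq_zero (fun y hy => if_neg (hno y hy)), ← hqq] at hk
      have hG := GG_nonneg hOne h u
      have hG0 : GG T p s.r s.a u ≤ 0 := by
        by_contra hpos
        push Not at hpos
        have := mul_lt_mul_of_pos_right hc hpos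
        linarith
      have hz : dfc T s u (zz T s u) = 0 := le_antisymm ((hdf u).trans hG0) hd0
      rw [hz] at hd1 ⊢
      linarith
  · by_cases ha : al T s.a v
    · exact (((hOne.2.2.2.2.2.2 V k p s.r v (h.good.p01 v)).2 (h.rb v)).2.2.2 _
        (h.par.s01 v).1 (h.par.s01 v).2).1.trans ((main hTree hOne h v).1 ha)
    · exact ((main hTree hOne h v).2 ha).ge
  · by_cases hv0 : v = T.root
    · subst hv0
      rw [((hTree V T).2.2.2.1 k s).1]
      simp [h.good.root]
      have : (0 : ℝ) ≤ k := Nat.cast_nonneg k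
      linarith
    · by_cases ha : al T s.a v
      · rw [((hTree V T).2.2.2.1 k s).2 v hv0]
        have h1 := mul_nonneg (qt_nonneg h v) (dfc_nonneg (T := T) (s := s) (T.par v)
          (zz T s (T.par v)))
        have hr : rt T s.r s.a v = MM s.r v := by
          unfold rt
          rw [if_pos ha]
        have h2 := ((hOne.2.2.2.2.2.2 V k p s.r v (h.good.p01 v)).2 (h.rb v)).2.2.1
        linarith
      · rw [(main hTree hOne h v).2 ha]
        have := Finset.sum_nonneg (fun i (_ : i ∈ (univ : Finset (Fin k))) => (h.good.p01 v i).1)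
        linarith
  · have hM : ∀ n : ℕ, 1 ≤ MM p (T.par^[n] v) := by
      intro n
      induction n with
      | zero =>
        have := Finset.single_le_sum (f := fun j => p v j ^ 2) (fun j _ => sq_nonneg _)
          (Finset.mem_univ i)
        simp only [hi, one_pow] at this
        exact this
      | succ n ih =>
        rw [Function.iterate_succ_apply']
        exact ih.trans ((hTree V T).2.2.2.2.2.2.2.2.1 (fun v => ∑ i, p v i ^ 2)
          (fun w => Finset.sum_nonneg (fun j _ => sq_nonneg _)) h.good.sq _).1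
    have ha : al T s.a v := fun n =>
      ((hM n).trans ((hOne.2.2.2.2.2.2 V k p s.r _ (h.good.p01 _)).2 (h.rb _)).1).trans (h.ab _).1
    refine le_trans ?_ ((main hTree hOne h v).1 ha)
    have h0 := (h.par.s01 v).1
    have h1 := (h.par.s01 v).2
    have := Finset.single_le_sum
      (f := fun j => (1 - ss T k s.a v) * p v j ^ 2 + ss T k s.a v * p v j ^ 3)
      (fun j _ => add_nonneg (mul_nonneg (sub_nonneg.2 h1) (sq_nonneg _))
        (mul_nonneg h0 (pow_nonneg (h.good.p01 v j).1 3))) (Finset.mem_univ i)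
    simp only [hi, one_pow, mul_one, sub_add_cancel] at this
    exact this

end Crest.Agent.KS.H
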