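import Crest.Agent.R314H.Defs

set_option autoImplicit false

namespace Crest.Agent.KS.H

open Finset
open scoped Classical

namespace FIN

variable {V : Type} [Fintype V] {k : ℕ}

/-- the dummy state -/
def st0 (V : Type) (k : ℕ) : St V k := ⟨fun _ _ => 0, fun _ => 0, fun _ => 0⟩

/-- the state after `t` steps -/
noncomputable def st (T : Tr V) (p : ℕ → V → Fin k → ℝ) : ℕ → St V k
  | 0 => upd T (p 0) (st0 V k)
  | t + 1 => upd T (p (t + 1)) (st T p t)

lemma st_congr (T : Tr V) (p p' : ℕ → V → Fin k → ℝ) (t : ℕ) (h : ∀ u ≤ t, p u = p' u) :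
    st T p t = st T p' t := by
  induction t with
  | zero => simp only [st]; rw [h 0 le_rfl]
  | succ t ih => simp only [st]; rw [h (t + 1) le_rfl, ih (fun u hu => h u (by omega))]

lemma st_inv (hInv : InvStmt) (T : Tr V) (hk : 2 ≤ k) (p : ℕ → V → Fin k → ℝ)
    (hp : ∀ t, Good T (p t)) (t : ℕ) : Inv T (p t) (st T p t) := by
  induction t with
  | zero => exact hInv V T k (p 0) (st0 V k) hk (hp 0) (fun v i => by simp [st0]) (fun v => by simp [st0])
  | succ t ih =>
    exact hInv V T k (p (t + 1)) (st T p t) hk (hp (t + 1))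
      (fun v i => ⟨(ih.good.p01 v i).1.trans (ih.rb v i).1, (ih.rb v i).2.2⟩) ih.qok.nonneg

end FIN

open FIN in
theorem FIN_proof (hBay : BayStmt) (hTree : TreeStmt) (hOne : OneStmt) (hInv : InvStmt)
    (hFeas : FeasStmt) (hTan : TanStmt) (hStep : StepStmt) (hGoodp : GoodpStmt) (hMart : MartStmt) :
    HStmt := by
  refine ⟨2 * 10 ^ 12, by norm_num, ?_⟩
  intro k hk V _ T τ wt hτ hwt Ω _ P N hroot hsup
  have hL : 1 ≤ LL k := hOne.1 k hk
  obtain ⟨hE1, hE2, -, -, hAd, -, hmono⟩ := hBay Ω P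
  set p : Ω → ℕ → V → Fin k → ℝ := fun ω t => post P N k t ω with hp
  have hG := hGoodp k V T Ω P N hroot hsup
  have hI : ∀ ω t, Inv T (p ω t) (st T (p ω) t) := fun ω t =>
    st_inv hInv T hk (p ω) (fun t => (hG t ω).1) t
  have hpAd : ∀ t, P.Ad t (fun ω => p ω t) := by
    intro t a b hab
    funext v i
    exact hAd t _ a b hab
  have hsAd : ∀ t, P.Ad t (fun ω => st T (p ω) t) := by
    intro t a b hab
    exact st_congr T _ _ t fun u hu => hmono _ u t _ hu (hpAd u) a b hab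
  refine ⟨fun t ω => zz T (st T (p ω) t), ?_, ?_, ?_, ?_, ?_, ?_⟩
  · intro t a b hab
    have := hsAd t a b hab
    simp only at this ⊢
    rw [this]
  · intro t ω
    exact ((hTree V T).2.2.2.1 k _).1
  · intro t ω
    exact (hFeas V T k _ _ (hI ω t)).1
  · intro t ω v
    have := (hFeas V T k _ _ (hI ω t)).2.1 v
    rw [(hG t ω).2.1 v] at this
    exact this
  · intro t ω v h
    exact (hFeas V T k _ _ (hI ω t)).2.2.1 v ⟨0, by omega⟩ ((hG t ω).2.2 v ⟨0, by omega⟩ rfl h)
  · intro n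
    -- tangent coefficients
    have hβ : ∀ (q : V → Fin k → ℝ) (s : St V k), ∃ β : V → Fin k → ℝ,
        (∀ v i, |β v i| ≤ 2 * 10 ^ 11 * LL k) ∧ (Inv T q s → ∀ p' : V → Fin k → ℝ, Good T p' →
          Phi T τ wt p' s - Phi T τ wt q s ≤ ∑ v, wt v * ∑ i, β v i * (p' v i - q v i)) := by
      intro q s
      by_cases h : Inv T q s
      · obtain ⟨β, h1, h2⟩ := (hTan V T k τ wt q s hk hτ hwt h).1
        exact ⟨β, h1, fun _ => h2⟩
      · exact ⟨fun _ _ => 0, fun v i => by rw [abs_zero]; positivity, fun h' => absurd h' h⟩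
    choose β hβ1 hβ2 using hβ
    set D : ℕ → Ω → ℝ := fun t ω => ∑ v, wt v * ∑ i, β (p ω t) (st T (p ω) t) v i *
      (post P N k (t + 1) ω v i - post P N k t ω v i) with hD
    have hstep : ∀ ω t, T.mv wt (zz T (st T (p ω) t)) (zz T (st T (p ω) (t + 1))) / 2 ≤
        Phi T τ wt (p ω t) (st T (p ω) t) - Phi T τ wt (p ω (t + 1)) (st T (p ω) (t + 1)) + D t ω := by
      intro ω t
      have h1 := hStep V T k τ wt (p ω t) (p ω (t + 1)) (st T (p ω) t) hk hτ hwt (hI ω t)
        (hG (t + 1) ω).1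
      have h2 := hβ2 (p ω t) (st T (p ω) t) (hI ω t) (p ω (t + 1)) (hG (t + 1) ω).1
      have e : st T (p ω) (t + 1) = upd T (p ω (t + 1)) (st T (p ω) t) := rfl
      rw [e]
      have e2 : D t ω = ∑ v, wt v * ∑ i, β (p ω t) (st T (p ω) t) v i *
          (p ω (t + 1) v i - p ω t v i) := rfl
      linarith
    have hsum : ∀ ω, ∑ t ∈ range n, T.mv wt (zz T (st T (p ω) t)) (zz T (st T (p ω) (t + 1))) ≤
        2 * (10 ^ 12 * LL k * (k * wt T.root)) + 2 * ∑ t ∈ range n, D t ω := by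
      intro ω
      have h1 := Finset.sum_le_sum (s := range n) fun t _ => hstep ω t
      rw [Finset.sum_add_distrib,
        Finset.sum_range_sub' (fun t => Phi T τ wt (p ω t) (st T (p ω) t)) n, ← Finset.sum_div] at h1
      have h2 := (hTan V T k τ wt _ _ hk hτ hwt (hI ω 0)).2.2
      have h3 := (hTan V T k τ wt _ _ hk hτ hwt (hI ω n)).2.1
      linarith
    have hM : ∀ t, P.Ex (D t) ≤ 2 * 10 ^ 11 * LL k *
        P.Ex (fun ω => T.mv wt (fun v => (N t ω v : ℝ)) (fun v => (N (t + 1) ω v : ℝ))) := by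
      intro t
      refine hMart k V T wt Ω P N t (fun ω => β (p ω t) (st T (p ω) t)) _ (by positivity)
        (fun v => (hwt.1 v).le) hroot ?_ (fun ω v i => hβ1 _ _ v i)
      intro a b hab
      have h1 := hpAd t a b hab
      have h2 := hsAd t a b hab
      simp only at h1 h2 ⊢
      rw [h1, h2]
    have hX : 0 ≤ P.Ex (fun ω => ∑ t ∈ range n,
        T.mv wt (fun v => (N t ω v : ℝ)) (fun v => (N (t + 1) ω v : ℝ))) := by
      have := (hE1 (fun _ => 0) (fun ω => ∑ t ∈ range n,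
        T.mv wt (fun v => (N t ω v : ℝ)) (fun v => (N (t + 1) ω v : ℝ))) 0).2.2.2 (fun ω =>
          Finset.sum_nonneg fun t _ => Finset.sum_nonneg fun v _ =>
            mul_nonneg (hwt.1 v).le (abs_nonneg _))
      rw [(hE1 (fun _ => 0) (fun _ => 0) 0).2.2.1] at this
      exact this
    have h1 := (hE1 _ _ 0).2.2.2 hsum
    rw [(hE1 _ _ 0).1, (hE1 (fun _ => 0) (fun _ => 0) _).2.2.1, (hE1 _ (fun _ => 0) 2).2.1,
      hE2 ℕ (range n) D] at h1
    have h2 := Finset.sum_le_sum (s := range n) fun t _ => hM t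
    rw [← Finset.mul_sum, ← hE2 ℕ (range n)
      (fun t ω => T.mv wt (fun v => (N t ω v : ℝ)) (fun v => (N (t + 1) ω v : ℝ)))] at h2
    have h3 : 0 ≤ LL k * P.Ex (fun ω => ∑ t ∈ range n,
        T.mv wt (fun v => (N t ω v : ℝ)) (fun v => (N (t + 1) ω v : ℝ))) := by positivity
    have e : Real.log (k + 1) = LL k := rfl
    rw [e]
    refine h1.trans ?_
    nlinarith

end Crest.Agent.KS.H
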