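import Crest.Agent.KS.DefsI

/-! Row 314 (H): power sums of the tail probabilities `P(i < N v | F_t)` are superadditive. -/

set_option autoImplicit false

namespace Crest.Agent.R314H

open Finset Crest.Agent.KS
open scoped Classical

section Cond

variable {Ω : Type} [Fintype Ω] (P : Bay Ω)

/-- conditional weights -/
noncomputable def cw (t : ℕ) (a b : Ω) : ℝ :=
  (if P.eqv t a b then P.w b else 0) / ∑ c, if P.eqv t a c then P.w c else 0

theorem den_pos (t : ℕ) (a : Ω) : 0 < ∑ c, if P.eqv t a c then P.w c else 0 := by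
  refine Finset.sum_pos' (fun c _ => ?_) ⟨a, mem_univ _, ?_⟩
  · split_ifs
    · exact (P.pos c).le
    · exact le_rfl
  · rw [if_pos (P.refl t a)]; exact P.pos a

theorem cw_nonneg (t : ℕ) (a b : Ω) : 0 ≤ cw P t a b := by
  unfold cw
  refine div_nonneg ?_ (den_pos P t a).le
  split_ifs
  · exact (P.pos b).le
  · exact le_rfl

theorem cw_sum (t : ℕ) (a : Ω) : ∑ b, cw P t a b = 1 := by
  unfold cw
  rw [← Finset.sum_div, div_self (den_pos P t a).ne']

theorem cw_zero (t : ℕ) (a b : Ω) (h : ¬ P.eqv t a b) : cw P t a b = 0 := by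
  unfold cw; rw [if_neg h, zero_div]

theorem cond_eq (t : ℕ) (f : Ω → ℝ) (a : Ω) : P.cond t f a = ∑ b, cw P t a b * f b := by
  unfold Bay.cond cw
  rw [Finset.sum_div]
  refine Finset.sum_congr rfl fun b _ => ?_
  split_ifs
  · ring
  · simp

theorem cond_congr (t : ℕ) (f g : Ω → ℝ) (a : Ω) (h : ∀ b, P.eqv t a b → f b = g b) :
    P.cond t f a = P.cond t g a := by
  rw [cond_eq, cond_eq]
  refine Finset.sum_congr rfl fun b _ => ?_
  by_cases hb : P.eqv t a b
  · rw [h b hb]
  · rw [cw_zero P t a b hb]; simp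

theorem cond_const (t : ℕ) (c : ℝ) (a : Ω) : P.cond t (fun _ => c) a = c := by
  rw [cond_eq, ← Finset.sum_mul, cw_sum, one_mul]

end Cond

/-- the tail probability `q (i < N)` -/
noncomputable def tl {Ω : Type} [Fintype Ω] (q : Ω → ℝ) (N : Ω → ℕ) (i : ℕ) : ℝ :=
  ∑ b, q b * (if i < N b then (1 : ℝ) else 0)

theorem tl_pow {Ω : Type} [Fintype Ω] (q : Ω → ℝ) (N : Ω → ℕ) (k m : ℕ) :
    ∑ i ∈ range k, tl q N i ^ m =
      ∑ β : Fin m → Ω, (∏ j, q (β j)) *
        (((range k).filter (fun i => ∀ j, i < N (β j))).card : ℝ) := by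
  have h1 : ∀ i, tl q N i ^ m =
      ∑ β : Fin m → Ω, (∏ j, q (β j)) * (if ∀ j, i < N (β j) then (1 : ℝ) else 0) := by
    intro i
    unfold tl
    rw [Finset.sum_pow', Fintype.piFinset_univ]
    refine Finset.sum_congr rfl fun β _ => ?_
    rw [Finset.prod_mul_distrib, Finset.prod_boole]
    simp
  simp_rw [h1]
  rw [Finset.sum_comm]
  refine Finset.sum_congr rfl fun β _ => ?_
  rw [← Finset.mul_sum, Finset.sum_boole]

theorem tl_super {Ω ι : Type} [Fintype Ω] (q : Ω → ℝ) (hq : ∀ b, 0 ≤ q b) (S : Finset ι)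
    (N : ι → Ω → ℕ) (Nu : Ω → ℕ) (k m : ℕ) (hm : 1 ≤ m)
    (hS : ∀ b, ∑ v ∈ S, N v b ≤ Nu b) (hk : ∀ b, Nu b ≤ k) :
    ∑ v ∈ S, ∑ i ∈ range k, tl q (N v) i ^ m ≤ ∑ i ∈ range k, tl q Nu i ^ m := by
  simp_rw [tl_pow]
  rw [Finset.sum_comm]
  refine Finset.sum_le_sum fun β _ => ?_
  rw [← Finset.mul_sum]
  refine mul_le_mul_of_nonneg_left ?_ (Finset.prod_nonneg fun j _ => hq _)
  rw [← Nat.cast_sum, Nat.cast_le]
  set s := ∑ v ∈ S, ((range k).filter (fun i => ∀ j, i < N v (β j))).card with hs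
  have hle : ∀ j, s ≤ Nu (β j) := by
    intro j
    refine le_trans (Finset.sum_le_sum fun v _ => ?_) (hS (β j))
    calc ((range k).filter (fun i => ∀ j, i < N v (β j))).card
        ≤ (range (N v (β j))).card := by
          refine Finset.card_le_card fun i hi => ?_
          rw [mem_filter] at hi
          exact mem_range.2 (hi.2 j)
      _ = N v (β j) := card_range _
  have hsk : s ≤ k := (hle ⟨0, hm⟩).trans (hk _)
  calc s = (range s).card := (card_range _).symm
    _ ≤ _ := by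
      refine Finset.card_le_card fun i hi => ?_
      rw [mem_range] at hi
      rw [mem_filter, mem_range]
      exact ⟨hi.trans_le hsk, fun j => hi.trans_le (hle j)⟩

section Tree

variable {V : Type} [Fintype V] (T : Tr V)

theorem mem_ch {u v : V} : v ∈ T.ch u ↔ v ≠ T.root ∧ T.par v = u := by
  unfold Tr.ch; simp

/-- a nonnegative superadditive function is bounded by its value at the root -/
theorem le_root (Y : V → ℝ) (h0 : ∀ v, 0 ≤ Y v) (hY : T.SupA Y) (v : V) : Y v ≤ Y T.root := by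
  have key : ∀ n v, T.dep v = n → Y v ≤ Y T.root := by
    intro n
    induction n with
    | zero =>
      intro v hv
      by_cases h : v = T.root
      · rw [h]
      · rw [T.dep_par v h] at hv; omega
    | succ n ih =>
      intro v hv
      by_cases h : v = T.root
      · rw [h]
      · have h1 : T.dep (T.par v) = n := by rw [T.dep_par v h] at hv; omega
        refine le_trans ?_ (ih _ h1)
        refine le_trans ?_ (hY (T.par v))
        exact Finset.single_le_sum (f := Y) (fun w _ => h0 w) ((mem_ch T).2 ⟨h, rfl⟩)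
  exact key _ v rfl

theorem nat_le_k {k : ℕ} (N : V → ℕ) (hr : N T.root = k) (hN : T.SupA (fun v => (N v : ℝ)))
    (v : V) : N v ≤ k := by
  have := le_root T (fun v => (N v : ℝ)) (fun v => Nat.cast_nonneg _) hN v
  rw [← hr]; exact_mod_cast this

variable {Ω : Type} [Fintype Ω] (P : Bay Ω)

/-- the posterior tail probability `P (i < N v | F_t)` -/
noncomputable def tp (t : ℕ) (N : Ω → V → ℕ) (a : Ω) (v : V) (i : ℕ) : ℝ :=
  P.cond t (fun b => if i < N b v then (1 : ℝ) else 0) a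

omit [Fintype V] in
theorem tp_eq (t : ℕ) (N : Ω → V → ℕ) (a : Ω) (v : V) (i : ℕ) :
    tp P t N a v i = tl (cw P t a) (fun b => N b v) i := by
  unfold tp tl; rw [cond_eq]

omit [Fintype V] in
theorem tp_nonneg (t : ℕ) (N : Ω → V → ℕ) (a : Ω) (v : V) (i : ℕ) : 0 ≤ tp P t N a v i := by
  rw [tp_eq]; unfold tl
  refine Finset.sum_nonneg fun b _ => mul_nonneg (cw_nonneg P t a b) ?_
  split_ifs <;> norm_num

omit [Fintype V] in
theorem tp_le_one (t : ℕ) (N : Ω → V → ℕ) (a : Ω) (v : V) (i : ℕ) : tp P t N a v i ≤ 1 := by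
  rw [tp_eq]; unfold tl
  refine le_trans (Finset.sum_le_sum fun b _ => ?_) (cw_sum P t a).le
  have := cw_nonneg P t a b
  split_ifs <;> simp [this]

omit [Fintype V] in
/-- `∑ i < k, P (i < N v) = E (N v)` -/
theorem sum_tp (t k : ℕ) (N : Ω → V → ℕ) (a : Ω) (v : V) (hk : ∀ b, N b v ≤ k) :
    ∑ i ∈ range k, tp P t N a v i = P.cond t (fun b => (N b v : ℝ)) a := by
  simp_rw [tp_eq]; unfold tl
  rw [Finset.sum_comm, cond_eq]
  refine Finset.sum_congr rfl fun b _ => ?_
  rw [← Finset.mul_sum, Finset.sum_boole]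
  congr 1
  have : (range k).filter (fun i => i < N b v) = range (N b v) := by
    ext i; simp only [mem_filter, mem_range]
    exact ⟨fun h => h.2, fun h => ⟨h.trans_le (hk b), h⟩⟩
  rw [this, card_range]

omit [Fintype V] in
theorem tp_eq_one (t : ℕ) (N : Ω → V → ℕ) (a : Ω) (v : V) (i : ℕ)
    (h : ∀ b, P.eqv t a b → i < N b v) : tp P t N a v i = 1 := by
  unfold tp
  rw [cond_congr P t _ (fun _ => 1) a (fun b hb => if_pos (h b hb)), cond_const]

/-- at the root all power sums are `k` -/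
theorem sum_tp_root (t k m : ℕ) (N : Ω → V → ℕ) (a : Ω) (hr : ∀ b, N b T.root = k) :
    ∑ i ∈ range k, tp P t N a T.root i ^ m = k := by
  rw [Finset.sum_congr rfl (g := fun _ => (1 : ℝ))]
  · simp
  · intro i hi
    rw [tp_eq_one P t N a _ i (fun b _ => by rw [hr b]; exact mem_range.1 hi), one_pow]

omit [Fintype V] in
/-- a node that surely holds a server has all power sums at least `1` -/
theorem one_le_sum_tp (t k m : ℕ) (hk : 1 ≤ k) (N : Ω → V → ℕ) (a : Ω) (v : V)
    (h : ∀ b, P.eqv t a b → 1 ≤ N b v) : 1 ≤ ∑ i ∈ range k, tp P t N a v i ^ m := by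
  have h0 : tp P t N a v 0 ^ m = 1 := by
    rw [tp_eq_one P t N a v 0 (fun b hb => h b hb), one_pow]
  rw [← h0]
  exact Finset.single_le_sum (f := fun i => tp P t N a v i ^ m)
    (fun i _ => pow_nonneg (tp_nonneg P t N a v i) m) (mem_range.2 hk)

/-- **superadditivity** of the power sums of the posterior tail probabilities -/
theorem supA_tp (t k m : ℕ) (hm : 1 ≤ m) (N : Ω → V → ℕ) (a : Ω) (hr : ∀ b, N b T.root = k)
    (hN : ∀ b, T.SupA (fun v => (N b v : ℝ))) :
    T.SupA (fun v => ∑ i ∈ range k, tp P t N a v i ^ m) := by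
  intro u
  simp_rw [tp_eq]
  refine tl_super (cw P t a) (cw_nonneg P t a) (T.ch u) (fun v b => N b v) (fun b => N b u) k m hm
    (fun b => ?_) (fun b => nat_le_k T (N b) (hr b) (hN b) u)
  have : ∑ v ∈ T.ch u, (N b v : ℝ) ≤ (N b u : ℝ) := hN b u
  exact_mod_cast this

/-- superadditivity of `Z (s) = (1 - s) ∑ p ^ 2 + s ∑ p ^ 3` for `s ∈ [0, 1]` -/
theorem supA_Z (t k : ℕ) (s : ℝ) (hs0 : 0 ≤ s) (hs1 : s ≤ 1) (N : Ω → V → ℕ) (a : Ω)
    (hr : ∀ b, N b T.root = k) (hN : ∀ b, T.SupA (fun v => (N b v : ℝ))) :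
    T.SupA (fun v => (1 - s) * ∑ i ∈ range k, tp P t N a v i ^ 2 +
      s * ∑ i ∈ range k, tp P t N a v i ^ 3) := by
  intro u
  have h2 := supA_tp T P t k 2 (by norm_num) N a hr hN u
  have h3 := supA_tp T P t k 3 (by norm_num) N a hr hN u
  simp only at h2 h3 ⊢
  rw [Finset.sum_add_distrib, ← Finset.mul_sum, ← Finset.mul_sum]
  have := mul_le_mul_of_nonneg_left h2 (sub_nonneg.2 hs1)
  have := mul_le_mul_of_nonneg_left h3 hs0
  linarith

end Tree

end Crest.Agent.R314H
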