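import Crest.Agent.R314H.Defs
import Crest.Agent.R314H.Sup

/-! Row 314 (H), task GOODP. -/

set_option autoImplicit false

namespace Crest.Agent.KS.H

open Finset
open scoped Classical

theorem GOODP_proof (_hBay : BayStmt) (_hTree : TreeStmt) : GoodpStmt := by
  intro k V _ T Ω _ P N hr hN t ω
  have hp : ∀ v (i : Fin k), post P N k t ω v i = R314H.tp P t (N t) ω v i.val := fun _ _ => rfl
  have hsum : ∀ (m : ℕ) v, ∑ i : Fin k, post P N k t ω v i ^ m =
      ∑ i ∈ range k, R314H.tp P t (N t) ω v i ^ m := by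
    intro m v
    simp_rw [hp]
    exact Fin.sum_univ_eq_sum_range (fun i => R314H.tp P t (N t) ω v i ^ m) k
  have hsup : ∀ m : ℕ, 1 ≤ m → T.SupA (fun v => ∑ i : Fin k, post P N k t ω v i ^ m) := by
    intro m hm
    simp_rw [hsum]
    exact R314H.supA_tp T P t k m hm (N t) ω (hr t) (hN t)
  refine ⟨⟨fun v i => ⟨R314H.tp_nonneg P t (N t) ω v i.val, R314H.tp_le_one P t (N t) ω v i.val⟩,
    fun i => ?_, ?_, hsup 2 (by norm_num), hsup 3 (by norm_num)⟩, fun v => ?_, fun v i hi h => ?_⟩
  · rw [hp]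
    exact R314H.tp_eq_one P t (N t) ω _ _ (fun b _ => by rw [hr t b]; exact i.2)
  · have := hsup 1 le_rfl
    simpa only [pow_one] using this
  · have := hsum 1 v
    simp only [pow_one] at this
    rw [this]
    exact R314H.sum_tp P t k (N t) ω v (fun b => R314H.nat_le_k T (N t b) (hr t b) (hN t b) v)
  · rw [hp]
    exact R314H.tp_eq_one P t (N t) ω _ _ (fun b hb => by rw [hi]; exact h b hb)

end Crest.Agent.KS.H
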