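import Crest.Agent.R314H.Defs

set_option autoImplicit false

namespace Crest.Agent.KS.H

open Finset
open scoped Classical

theorem INV_proof (hTree : TreeStmt) (hOne : OneStmt) (hPar : ParStmt) : InvStmt := by
  intro V _ T k p s hk hG hr hq
  have _ := hTree
  obtain ⟨-, hclp, hcls, -, -, hprj, hMM⟩ := hOne
  have hrb : ∀ v i, p v i ≤ nr' p s v i ∧ nr' p s v i ≤ 2 * p v i ∧ nr' p s v i ≤ 1 := fun v i =>
    (hclp (s.r v i) (p v i) (hr v i).1 (hr v i).2 (hG.p01 v i).1 (hG.p01 v i).2).2.1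
  have hM0 : ∀ v, 0 ≤ MM (nr' p s) v := fun v => Finset.sum_nonneg fun i _ => sq_nonneg _
  have hab : ∀ v, MM (nr' p s) v ≤ na p s v ∧ na p s v ≤ 2 * MM (nr' p s) v := fun v =>
    (hcls (s.a v) _ (hM0 v)).1
  have hM : ∀ v, MM p v ≤ MM (nr' p s) v ∧ MM (nr' p s) v ≤ 4 * MM p v ∧
      MM (nr' p s) v ≤ 2 * ∑ i, p v i ∧ ∀ x : ℝ, 0 ≤ x → x ≤ 1 → 0 ≤ ZZ p x v ∧
        0 ≤ MM (nr' p s) v - ZZ p x v ∧ MM (nr' p s) v - ZZ p x v ≤ 9 * Gam p v := fun v =>
    (hMM V k p (nr' p s) v (hG.p01 v)).2 (hrb v)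
  have hpar : ParOk T k (na p s) := hPar V T k p (na p s) hk hG fun v =>
    ⟨(hM v).1.trans (hab v).1, by linarith [(hab v).2, (hM v).2.1]⟩
  have hg0 : ∀ v, 0 ≤ gt T p (nr' p s) (na p s) v := fun v => by
    unfold gt
    split_ifs
    · exact ((hM v).2.2.2 _ (hpar.s01 _).1 (hpar.s01 _).2).2.1
    · exact le_rfl
  have hq0 : ∀ v, 0 ≤ q0 T s.a (na p s) s.q v := fun v => by
    unfold q0
    split_ifs
    · exact hq v
    · exact le_rfl
  have hL : 0 < cc / LL k := by
    have : 0 < LL k := by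
      unfold LL
      refine Real.log_pos ?_
      have : (2 : ℝ) ≤ k := by exact_mod_cast hk
      linarith
    unfold cc
    positivity
  have hP : ∀ v, lt T (na p s) v →
      0 ≤ (upd T p s).q v ∧
      (1 + ee T k (na p s) v / 2) * gt T p (nr' p s) (na p s) v -
          dd T k (na p s) v * GG T p (nr' p s) (na p s) (T.par v) ≤
        (upd T p s).q v * GG T p (nr' p s) (na p s) (T.par v) ∧
      (upd T p s).q v * GG T p (nr' p s) (na p s) (T.par v) ≤
        (1 + ee T k (na p s) v) * gt T p (nr' p s) (na p s) v ∧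
      (GG T p (nr' p s) (na p s) (T.par v) = 0 → (upd T p s).q v = 0) := fun v hv => by
    have hmem : v ∈ T.ch (T.par v) := by
      simp only [Tr.ch, mem_filter, mem_univ, true_and, and_true]
      exact hv.1
    have hgG : gt T p (nr' p s) (na p s) v ≤ GG T p (nr' p s) (na p s) (T.par v) :=
      Finset.single_le_sum (f := fun v => gt T p (nr' p s) (na p s) v) (fun y _ => hg0 y) hmem
    have h := hprj (ee T k (na p s) v) (dd T k (na p s) v) _ _ _
      (hL.trans_le (hpar.light v hv).1) (hpar.e01 v).2 (hpar.light v hv).2.1 (hg0 v) hgG (hq0 v)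
    simp only [upd, if_pos hv]
    exact ⟨h.1, h.2.1, h.2.2.1, h.2.2.2.1⟩
  have hz : ∀ v, ¬ lt T (na p s) v → (upd T p s).q v = 0 := fun v hv => by
    simp only [upd, if_neg hv]
  refine ⟨hG, hrb, hab, hpar, ⟨fun v => ?_, hz, fun u => ?_⟩,
    fun v hv => ⟨(hP v hv).2.1, (hP v hv).2.2.1⟩⟩
  · by_cases hv : lt T (na p s) v
    · exact (hP v hv).1
    · exact (hz v hv).ge
  · have hG0 : 0 ≤ GG T p (nr' p s) (na p s) u := Finset.sum_nonneg fun y _ => hg0 y
    have hpu : ∀ v ∈ T.ch u, T.par v = u := fun v hv => by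
      simp only [Tr.ch, mem_filter, mem_univ, true_and] at hv
      exact hv.2
    rcases hG0.eq_or_lt with h0 | hpos
    · have : ∑ v ∈ T.ch u, (upd T p s).q v = 0 := Finset.sum_eq_zero fun v hv => by
        by_cases hl : lt T (na p s) v
        · exact (hP v hl).2.2.2 (by rw [hpu v hv]; exact h0.symm)
        · exact hz v hl
      rw [this]; norm_num
    · have h1 : ∑ v ∈ T.ch u, (upd T p s).q v * GG T p (nr' p s) (na p s) u ≤
          ∑ v ∈ T.ch u, 2 * gt T p (nr' p s) (na p s) v := Finset.sum_le_sum fun v hv => by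
        by_cases hl : lt T (na p s) v
        · have h2 := (hP v hl).2.2.1
          rw [hpu v hv] at h2
          have h3 := (hpar.e01 v).2
          have h4 := hg0 v
          nlinarith
        · rw [hz v hl, zero_mul]; linarith [hg0 v]
      rw [← Finset.sum_mul, ← Finset.mul_sum] at h1
      exact le_of_mul_le_mul_right h1 hpos

end Crest.Agent.KS.H
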