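import Crest.Agent.R314H.Defs

set_option autoImplicit false

namespace Crest.Agent.KS.H

open Finset
open scoped Classical

theorem KAP_proof (hOne : OneStmt) : KapStmt := by
  intro V _ T k a q
  obtain ⟨hL, -, -, hAB, -⟩ := hOne
  refine ⟨?_, ?_⟩
  · intro hk hP hQ v
    have hL1 := hL k hk
    have hL0 : 0 < LL k := by linarith
    have hcc : (0 : ℝ) < cc / LL k := div_pos (by norm_num [cc]) hL0
    have hA : ∀ y, 0 ≤ (if lt T a y then AA (ee T k a y) (dd T k a y) (q y) else 0) ∧
        (if lt T a y then AA (ee T k a y) (dd T k a y) (q y) else 0) ≤ 160000 * LL k * q y := by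
      intro y
      have hq := hQ.nonneg y
      by_cases hy : lt T a y
      · rw [if_pos hy]
        obtain ⟨h1, h2, -, -⟩ := hP.light y hy
        have he : 0 < ee T k a y := lt_of_lt_of_le hcc h1
        obtain ⟨h3, h4, -⟩ := hAB _ _ _ he (hP.e01 y).2 h2 hq
        refine ⟨by linarith, h4.trans ?_⟩
        rw [div_le_iff₀ he]
        have h5 : cc ≤ ee T k a y * LL k := (div_le_iff₀ hL0).mp h1
        have h6 : cc = 1 / 20000 := rfl
        nlinarith [mul_le_mul_of_nonneg_left h5 hq]
      · rw [if_neg hy]
        exact ⟨le_rfl, by positivity⟩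
    have hB : 0 ≤ (if lt T a v then BB (ee T k a v) (dd T k a v) (q v) else 0) ∧
        (if lt T a v then BB (ee T k a v) (dd T k a v) (q v) else 0) ≤ 560000 * LL k := by
      by_cases hv : lt T a v
      · rw [if_pos hv]
        obtain ⟨h1, h2, -, h7⟩ := hP.light v hv
        have he : 0 < ee T k a v := lt_of_lt_of_le hcc h1
        obtain ⟨-, -, h3⟩ := hAB _ _ _ he (hP.e01 v).2 h2 (hQ.nonneg v)
        refine ⟨h3, h7 _ (hQ.nonneg v) ?_⟩
        refine le_trans ?_ (hQ.sum (T.par v))
        refine Finset.single_le_sum (f := q) (fun y _ => hQ.nonneg y) ?_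
        simp only [Tr.ch, Finset.mem_filter, Finset.mem_univ, true_and, and_true]
        exact hv.1
      · rw [if_neg hv]
        exact ⟨le_rfl, by positivity⟩
    have hS0 : 0 ≤ ∑ y ∈ T.ch (T.par v),
        if lt T a y then AA (ee T k a y) (dd T k a y) (q y) else 0 :=
      Finset.sum_nonneg fun y _ => (hA y).1
    have hS1 : (∑ y ∈ T.ch (T.par v),
        if lt T a y then AA (ee T k a y) (dd T k a y) (q y) else 0) ≤ 320000 * LL k := by
      refine (Finset.sum_le_sum fun y _ => (hA y).2).trans ?_
      rw [← Finset.mul_sum]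
      have := hQ.sum (T.par v)
      nlinarith
    unfold kap
    constructor <;> linarith [hB.1, hB.2]
  · intro p r u
    unfold psi
    have h1 : ∀ v ∈ T.ch u, kap T k a q v * gt T p r a v =
        (1120000 * LL k + 2 * ∑ y ∈ T.ch u,
          if lt T a y then AA (ee T k a y) (dd T k a y) (q y) else 0) * gt T p r a v -
        2 * (if lt T a v then gt T p r a v * BB (ee T k a v) (dd T k a v) (q v) else 0) := by
      intro v hv
      have hp : T.par v = u := by
        simp only [Tr.ch, Finset.mem_filter] at hv
        exact hv.2.2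
      unfold kap
      rw [hp]
      split_ifs <;> ring
    have h2 : ∀ v ∈ T.ch u, (if lt T a v then
        GG T p r a u * AA (ee T k a v) (dd T k a v) (q v) -
          gt T p r a v * BB (ee T k a v) (dd T k a v) (q v) else 0) =
        GG T p r a u * (if lt T a v then AA (ee T k a v) (dd T k a v) (q v) else 0) -
          (if lt T a v then gt T p r a v * BB (ee T k a v) (dd T k a v) (q v) else 0) := by
      intro v _
      split_ifs <;> ring
    rw [Finset.sum_congr rfl h1, Finset.sum_congr rfl h2, Finset.sum_sub_distrib,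
      Finset.sum_sub_distrib, ← Finset.mul_sum, ← Finset.mul_sum, ← Finset.mul_sum]
    have h3 : ∑ v ∈ T.ch u, gt T p r a v = GG T p r a u := rfl
    rw [h3]
    ring

end Crest.Agent.KS.H
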