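import Crest.Agent.R314H.Defs

set_option autoImplicit false

namespace Crest.Agent.KS.H

open Finset
open scoped Classical

namespace MART

theorem ind_sum (k n n' : ℕ) (h : n ≤ n') :
    ∑ i : Fin k, |(if i.val < n' then (1 : ℝ) else 0) - (if i.val < n then (1 : ℝ) else 0)| ≤
      (n' : ℝ) - n := by
  have h1 : ∀ i : Fin k, |(if i.val < n' then (1 : ℝ) else 0) - (if i.val < n then (1 : ℝ) else 0)|
      = if i.val ∈ Finset.Ico n n' then (1 : ℝ) else 0 := by
    intro i
    simp only [Finset.mem_Ico]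
    by_cases a : i.val < n
    · have b : i.val < n' := lt_of_lt_of_le a h
      have c : ¬ (n ≤ i.val ∧ i.val < n') := by omega
      simp [a, b, c]
    · by_cases b : i.val < n'
      · have c : n ≤ i.val ∧ i.val < n' := by omega
        simp [a, b, c]
      · have c : ¬ (n ≤ i.val ∧ i.val < n') := by omega
        simp [a, b, c]
  simp only [h1]
  rw [Finset.sum_boole]
  have h2 : (univ.filter (fun i : Fin k => i.val ∈ Finset.Ico n n')).card ≤ (Finset.Ico n n').card := by
    apply Finset.card_le_card_of_injOn (fun i => i.val)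
    · intro i hi
      simpa using hi
    · intro a _ b _ hab
      exact Fin.ext hab
  rw [Nat.card_Ico] at h2
  have h3 : ((n' - n : ℕ) : ℝ) = (n' : ℝ) - n := by
    rw [Nat.cast_sub h]
  rw [← h3]
  exact_mod_cast h2

theorem ind_sum' (k n n' : ℕ) :
    ∑ i : Fin k, |(if i.val < n' then (1 : ℝ) else 0) - (if i.val < n then (1 : ℝ) else 0)| ≤
      |(n' : ℝ) - n| := by
  rcases le_total n n' with h | h
  · exact (ind_sum k n n' h).trans (le_abs_self _)
  · have := ind_sum k n' n h
    rw [abs_sub_comm (n' : ℝ)]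
    refine le_trans (le_of_eq ?_) (this.trans (le_abs_self _))
    exact Finset.sum_congr rfl (fun i _ => abs_sub_comm _ _)

end MART

theorem MART_proof (hBay : BayStmt) (hTree : TreeStmt) : MartStmt := by
  intro k V _ T wt Ω _ P N t β K hK hwt hroot hβ hb
  obtain ⟨h1, h2, -, -, -, h6, h7⟩ := hBay Ω P
  obtain ⟨-, -, -, -, -, hsum, -⟩ := hTree V T
  set I : ℕ → Ω → V → Fin k → ℝ := fun u b v i => if i.val < N u b v then 1 else 0 with hI
  have hadd : ∀ f g : Ω → ℝ, P.Ex (fun a => f a + g a) = P.Ex f + P.Ex g :=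
    fun f g => (h1 f g 0).1
  have hmul : ∀ (c : ℝ) (f : Ω → ℝ), P.Ex (fun a => c * f a) = c * P.Ex f :=
    fun c f => (h1 f f c).2.1
  have hmono : ∀ f g : Ω → ℝ, (∀ a, f a ≤ g a) → P.Ex f ≤ P.Ex g :=
    fun f g => (h1 f g 0).2.2.2
  have hsub : ∀ f g : Ω → ℝ, P.Ex (fun a => f a - g a) = P.Ex f - P.Ex g := by
    intro f g
    have e1 := hadd f (fun a => (-1) * g a)
    have e2 := hmul (-1) g
    have e3 : (fun a => f a - g a) = fun a => f a + (-1) * g a := by
      funext a; ring
    rw [e3, e1, e2]; ring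
  have key : ∀ (v : V) (i : Fin k),
      P.Ex (fun ω => β ω v i * (post P N k (t + 1) ω v i - post P N k t ω v i)) =
        P.Ex (fun ω => β ω v i * (I (t + 1) ω v i - I t ω v i)) := by
    intro v i
    have a0 : P.Ad t (fun ω => β ω v i) := by
      intro a b hab
      have := hβ a b hab
      simp only [this]
    have a1 : P.Ad (t + 1) (fun ω => β ω v i) := h7 ℝ t (t + 1) _ (Nat.le_succ t) a0
    have e0 := h6 t (fun b => I t b v i) _ a0
    have e1 := h6 (t + 1) (fun b => I (t + 1) b v i) _ a1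
    simp only [mul_sub]
    rw [hsub, hsub]
    have p0 : (fun ω => β ω v i * post P N k t ω v i) =
        fun a => β a v i * P.cond t (fun b => I t b v i) a := rfl
    have p1 : (fun ω => β ω v i * post P N k (t + 1) ω v i) =
        fun a => β a v i * P.cond (t + 1) (fun b => I (t + 1) b v i) a := rfl
    rw [p0, p1, e0, e1]
  have lhs : P.Ex (fun ω => ∑ v, wt v * ∑ i, β ω v i *
        (post P N k (t + 1) ω v i - post P N k t ω v i)) =
      P.Ex (fun ω => ∑ v, wt v * ∑ i, β ω v i * (I (t + 1) ω v i - I t ω v i)) := by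
    rw [h2 V univ (fun v ω => wt v * ∑ i, β ω v i *
        (post P N k (t + 1) ω v i - post P N k t ω v i)),
      h2 V univ (fun v ω => wt v * ∑ i, β ω v i * (I (t + 1) ω v i - I t ω v i))]
    refine Finset.sum_congr rfl (fun v _ => ?_)
    rw [hmul, hmul, h2 (Fin k) univ (fun i ω => β ω v i *
        (post P N k (t + 1) ω v i - post P N k t ω v i)),
      h2 (Fin k) univ (fun i ω => β ω v i * (I (t + 1) ω v i - I t ω v i))]
    congr 1
    exact Finset.sum_congr rfl (fun i _ => key v i)
  rw [lhs, ← hmul]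
  apply hmono
  intro ω
  rw [hsum]
  have hr : ∑ i, β ω T.root i * (I (t + 1) ω T.root i - I t ω T.root i) = 0 := by
    apply Finset.sum_eq_zero
    intro i _
    simp only [hI, hroot, sub_self, mul_zero]
  rw [hr, mul_zero, zero_add]
  unfold Tr.mv
  rw [Finset.mul_sum]
  apply Finset.sum_le_sum
  intro v _
  have hv : ∑ i, β ω v i * (I (t + 1) ω v i - I t ω v i) ≤
      K * |(N (t + 1) ω v : ℝ) - (N t ω v : ℝ)| := by
    refine le_trans ?_ (mul_le_mul_of_nonneg_left (MART.ind_sum' k (N t ω v) (N (t + 1) ω v)) hK)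
    rw [Finset.mul_sum]
    apply Finset.sum_le_sum
    intro i _
    refine (le_abs_self _).trans ?_
    rw [abs_mul]
    exact mul_le_mul_of_nonneg_right (hb ω v i) (abs_nonneg _)
  calc wt v * ∑ i, β ω v i * (I (t + 1) ω v i - I t ω v i)
      ≤ wt v * (K * |(N (t + 1) ω v : ℝ) - (N t ω v : ℝ)|) :=
        mul_le_mul_of_nonneg_left hv (hwt v)
    _ = K * (wt v * |(N (t + 1) ω v : ℝ) - (N t ω v : ℝ)|) := by ring

end Crest.Agent.KS.H
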