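import Crest.Agent.R314H.Defs

/-! Row 314, part H, task NA: movement of the masses of the children of a node. -/

set_option autoImplicit false

namespace Crest.Agent.KS.H

open Finset
open scoped Classical

namespace NA

variable {V : Type} [Fintype V] (T : Tr V)

theorem mem_ch (u v : V) : v ∈ T.ch u ↔ v ≠ T.root ∧ T.par v = u := by
  unfold Tr.ch; simp

theorem heavy_sum (a : V → ℝ) (hu : ∀ v y : V, hv T a v → hv T a y → T.par v = T.par y → v = y)
    (u : V) (c : ℝ) (hc : 0 ≤ c) : ∑ v ∈ T.ch u, (if hv T a v then c else 0) ≤ c := by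
  by_cases h : ∃ h ∈ T.ch u, hv T a h
  · obtain ⟨h, hh, hhv⟩ := h
    rw [Finset.sum_eq_single h, if_pos hhv]
    · intro y hy hne
      rw [if_neg]
      intro hy'
      exact hne (hu y h hy' hhv (by rw [((mem_ch T u y).1 hy).2, ((mem_ch T u h).1 hh).2]))
    · intro hn; exact absurd hh hn
  · rw [Finset.sum_eq_zero]
    · exact hc
    · intro y hy
      rw [if_neg]
      intro hy'
      exact h ⟨y, hy, hy'⟩

/-- the heavy part of the share -/
noncomputable def hp (a q : V → ℝ) (u v : V) : ℝ :=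
  if hv T a v then max 0 (1 - ∑ y ∈ T.ch u, q y) else 0

theorem qt_eq (a q : V → ℝ) (hq : QOk T a q) (u v : V) (hvu : v ∈ T.ch u) :
    qt T a q v = q v + hp T a q u v := by
  unfold qt hp
  rw [((mem_ch T u v).1 hvu).2]
  by_cases h : hv T a v
  · rw [if_pos h, if_pos h, hq.zero v (fun hl => hl.2.2 h), zero_add]
  · rw [if_neg h, if_neg h, add_zero]

theorem hp_nonneg (a q : V → ℝ) (u v : V) : 0 ≤ hp T a q u v := by
  unfold hp
  split_ifs
  · exact le_max_left _ _
  · exact le_rfl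

theorem hp_sum (a q : V → ℝ) (hq : QOk T a q)
    (hu : ∀ v y : V, hv T a v → hv T a y → T.par v = T.par y → v = y) (u : V) :
    ∑ v ∈ T.ch u, hp T a q u v ≤ 1 := by
  have h0 : 0 ≤ ∑ y ∈ T.ch u, q y := Finset.sum_nonneg fun y _ => hq.nonneg y
  have := heavy_sum T a hu u (max 0 (1 - ∑ y ∈ T.ch u, q y)) (le_max_left _ _)
  refine le_trans this (max_le zero_le_one (by linarith))

end NA

theorem NA_proof (hTree : TreeStmt) (hOne : OneStmt) (hFeas : FeasStmt) (hEp1 : Ep1Stmt) :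
    NaStmt := by
  intro V _ T k p p' s s' hk hI hI' u
  obtain ⟨-, -, -, hzz, -, -, hhv, -, -, -⟩ := hTree V T
  obtain ⟨-, -, -, -, -, -, hM⟩ := hOne
  obtain ⟨hsig, -, hal, -, hch⟩ := hEp1 V T k s.a s'.a hk hI.par hI'.par
  have hD' := (hFeas V T k p' s' hI').2.2.2 u
  set D := dfc T s u (zz T s u) with hD
  set D' := dfc T s' u (zz T s' u) with hD'def
  set G' := GG T p' s'.r s'.a u with hG'
  have hD'0 : 0 ≤ D' := le_max_right _ _
  have hG'0 : 0 ≤ G' := le_trans hD'0 hD'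
  have hM'0 : ∀ v, 0 ≤ MM p' v := fun v => Finset.sum_nonneg fun i _ => sq_nonneg _
  have hMr : ∀ v, MM s'.r v ≤ 4 * MM p' v := fun v =>
    ((hM V k p' s'.r v (hI'.good.p01 v)).2 (hI'.rb v)).2.1
  have hMr0 : ∀ (r : V → Fin k → ℝ) v, 0 ≤ MM r v := fun r v =>
    Finset.sum_nonneg fun i _ => sq_nonneg _
  -- the gaps
  have hG9 : G' ≤ 9 * ∑ v ∈ T.ch u, MM p' v := by
    rw [Finset.mul_sum]
    refine Finset.sum_le_sum fun v _ => ?_
    unfold gt
    split_ifs
    · have h1 := (hM V k p' s'.r v (hI'.good.p01 v))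
      have h2 := ((h1.2 (hI'.rb v)).2.2.2 _ (hI'.par.s01 (T.par v)).1 (hI'.par.s01 (T.par v)).2).2.2
      have h3 := h1.1.2.1
      linarith
    · have := hM'0 v; linarith
  -- the reference masses
  have hrt : ∀ v, |rt T s'.r s'.a v - rt T s.r s.a v| ≤
      |MM s'.r v - MM s.r v| + 4 * (sig T k s.a s'.a v * MM p' v) := by
    intro v
    have hs0 := (hsig v).2.1
    have hp0 : 0 ≤ sig T k s.a s'.a v * MM p' v := mul_nonneg hs0 (hM'0 v)
    unfold rt
    by_cases h1 : al T s.a v <;> by_cases h2 : al T s'.a v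
    · rw [if_pos h1, if_pos h2]; linarith
    · have hs1 := hal v (by simp [h1, h2])
      have : MM p' v ≤ sig T k s.a s'.a v * MM p' v := le_mul_of_one_le_left (hM'0 v) hs1
      rw [if_pos h1, if_neg h2, zero_sub, abs_neg, abs_of_nonneg (hMr0 _ _)]
      have h3 := neg_abs_le (MM s'.r v - MM s.r v)
      have := hMr v
      linarith
    · have hs1 := hal v (by simp [h1, h2])
      have : MM p' v ≤ sig T k s.a s'.a v * MM p' v := le_mul_of_one_le_left (hM'0 v) hs1
      rw [if_neg h1, if_pos h2, sub_zero, abs_of_nonneg (hMr0 _ _)]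
      have h3 := abs_nonneg (MM s'.r v - MM s.r v)
      have := hMr v
      linarith
    · rw [if_neg h1, if_neg h2, sub_zero, abs_zero]
      have h3 := abs_nonneg (MM s'.r v - MM s.r v)
      linarith
  set R := ∑ v ∈ T.ch u, |rt T s'.r s'.a v - rt T s.r s.a v| with hR
  have hRle : R ≤ ∑ v ∈ T.ch u, |MM s'.r v - MM s.r v| +
      4 * ∑ v ∈ T.ch u, sig T k s.a s'.a v * MM p' v := by
    rw [Finset.mul_sum, ← Finset.sum_add_distrib]
    exact Finset.sum_le_sum fun v _ => hrt v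
  -- the deficit
  have hDD : |D' - D| ≤ R + |zz T s' u - zz T s u| := by
    have h1 : |D' - D| ≤ |(∑ y ∈ T.ch u, rt T s'.r s'.a y - zz T s' u) -
        (∑ y ∈ T.ch u, rt T s.r s.a y - zz T s u)| := abs_max_sub_max_le_abs _ _ _
    have h2 : (∑ y ∈ T.ch u, rt T s'.r s'.a y - zz T s' u) -
        (∑ y ∈ T.ch u, rt T s.r s.a y - zz T s u) =
        (∑ y ∈ T.ch u, (rt T s'.r s'.a y - rt T s.r s.a y)) - (zz T s' u - zz T s u) := by
      rw [Finset.sum_sub_distrib]; ring
    rw [h2] at h1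
    refine le_trans h1 (le_trans (abs_sub _ _) ?_)
    have := Finset.abs_sum_le_sum_abs (fun y => rt T s'.r s'.a y - rt T s.r s.a y) (T.ch u)
    linarith
  -- the shares
  have hqt0 : ∀ v ∈ T.ch u, 0 ≤ qt T s.a s.q v := fun v hv => by
    rw [NA.qt_eq T _ _ hI.qok u v hv]
    exact add_nonneg (hI.qok.nonneg v) (NA.hp_nonneg T _ _ _ _)
  have hqt3 : ∑ v ∈ T.ch u, qt T s.a s.q v ≤ 3 := by
    rw [Finset.sum_congr rfl fun v hv => NA.qt_eq T _ _ hI.qok u v hv, Finset.sum_add_distrib]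
    have := hI.qok.sum u
    have := NA.hp_sum T _ _ hI.qok (hhv s.a) u
    linarith
  set Q := ∑ v ∈ T.ch u, |s'.q v - s.q v| with hQ
  have hQ0 : 0 ≤ Q := Finset.sum_nonneg fun v _ => abs_nonneg _
  set W := ∑ v ∈ T.ch u, sig T k s.a s'.a v * MM p' v with hW
  have hW0 : 0 ≤ W := Finset.sum_nonneg fun v _ => mul_nonneg (hsig v).2.1 (hM'0 v)
  have hdq : ∑ v ∈ T.ch u, |qt T s'.a s'.q v - qt T s.a s.q v| ≤
      Q + ∑ v ∈ T.ch u, |NA.hp T s'.a s'.q u v - NA.hp T s.a s.q u v| := by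
    rw [← Finset.sum_add_distrib]
    refine Finset.sum_le_sum fun v hv => ?_
    rw [NA.qt_eq T _ _ hI.qok u v hv, NA.qt_eq T _ _ hI'.qok u v hv]
    have : s'.q v + NA.hp T s'.a s'.q u v - (s.q v + NA.hp T s.a s.q u v) =
        (s'.q v - s.q v) + (NA.hp T s'.a s'.q u v - NA.hp T s.a s.q u v) := by ring
    rw [this]
    exact abs_add_le _ _
  have hsh : D' * ∑ v ∈ T.ch u, |qt T s'.a s'.q v - qt T s.a s.q v| ≤ 2 * G' * Q + 18 * W := by
    have hS0 : 0 ≤ ∑ v ∈ T.ch u, |qt T s'.a s'.q v - qt T s.a s.q v| :=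
      Finset.sum_nonneg fun v _ => abs_nonneg _
    have h1 : D' * ∑ v ∈ T.ch u, |qt T s'.a s'.q v - qt T s.a s.q v| ≤
        G' * (Q + ∑ v ∈ T.ch u, |NA.hp T s'.a s'.q u v - NA.hp T s.a s.q u v|) :=
      mul_le_mul hD' hdq hS0 hG'0
    by_cases hc : ∃ y ∈ T.ch u, ¬ (hv T s.a y ↔ hv T s'.a y)
    · have hs1 := hch u hc
      have h2 : ∑ v ∈ T.ch u, |NA.hp T s'.a s'.q u v - NA.hp T s.a s.q u v| ≤ 2 := by
        have h3 := NA.hp_sum T _ _ hI.qok (hhv s.a) u
        have h4 := NA.hp_sum T _ _ hI'.qok (hhv s'.a) u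
        have h5 : ∑ v ∈ T.ch u, |NA.hp T s'.a s'.q u v - NA.hp T s.a s.q u v| ≤
            ∑ v ∈ T.ch u, (NA.hp T s'.a s'.q u v + NA.hp T s.a s.q u v) := by
          refine Finset.sum_le_sum fun v _ => ?_
          have := NA.hp_nonneg T s'.a s'.q u v
          have := NA.hp_nonneg T s.a s.q u v
          rw [abs_le]; constructor <;> linarith
        rw [Finset.sum_add_distrib] at h5
        linarith
      have h6 : ∑ v ∈ T.ch u, MM p' v ≤ W :=
        Finset.sum_le_sum fun v hv => le_mul_of_one_le_left (hM'0 v) (hs1 v hv)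
      have h7 : G' * (Q + ∑ v ∈ T.ch u, |NA.hp T s'.a s'.q u v - NA.hp T s.a s.q u v|) ≤
          G' * (Q + 2) := mul_le_mul_of_nonneg_left (by linarith) hG'0
      have h8 : 0 ≤ G' * Q := mul_nonneg hG'0 hQ0
      nlinarith
    · have hc' : ∀ y ∈ T.ch u, (hv T s.a y ↔ hv T s'.a y) := by
        intro y hy
        by_contra h
        exact hc ⟨y, hy, h⟩
      have h2 : ∑ v ∈ T.ch u, |NA.hp T s'.a s'.q u v - NA.hp T s.a s.q u v| ≤ Q := by
        have h3 := NA.heavy_sum T s.a (hhv s.a) u Q hQ0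
        refine le_trans (Finset.sum_le_sum fun v hvu => ?_) h3
        unfold NA.hp
        by_cases h : hv T s.a v
        · rw [if_pos h, if_pos ((hc' v hvu).1 h), if_pos h, max_comm 0, max_comm 0]
          refine le_trans (abs_max_sub_max_le_abs _ _ _) ?_
          have : (1 - ∑ y ∈ T.ch u, s'.q y) - (1 - ∑ y ∈ T.ch u, s.q y) =
              -∑ y ∈ T.ch u, (s'.q y - s.q y) := by
            rw [Finset.sum_sub_distrib]; ring
          rw [this, abs_neg]
          exact Finset.abs_sum_le_sum_abs _ _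
        · rw [if_neg h, if_neg (fun h' => h ((hc' v hvu).2 h')), if_neg h, sub_zero, abs_zero]
      have h7 : G' * (Q + ∑ v ∈ T.ch u, |NA.hp T s'.a s'.q u v - NA.hp T s.a s.q u v|) ≤
          G' * (Q + Q) := mul_le_mul_of_nonneg_left (by linarith) hG'0
      nlinarith
  -- assembly
  have hv1 : ∀ v ∈ T.ch u, |zz T s' v - zz T s v| ≤ |rt T s'.r s'.a v - rt T s.r s.a v| +
      qt T s.a s.q v * |D' - D| + D' * |qt T s'.a s'.q v - qt T s.a s.q v| := by
    intro v hvu
    obtain ⟨hne, hpar⟩ := (NA.mem_ch T u v).1 hvu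
    rw [(hzz k s).2 v hne, (hzz k s').2 v hne, hpar, ← hD, ← hD'def]
    have h1 : rt T s'.r s'.a v - qt T s'.a s'.q v * D' - (rt T s.r s.a v - qt T s.a s.q v * D) =
        (rt T s'.r s'.a v - rt T s.r s.a v) - qt T s.a s.q v * (D' - D) -
          D' * (qt T s'.a s'.q v - qt T s.a s.q v) := by ring
    rw [h1]
    refine le_trans (abs_sub _ _) (add_le_add (le_trans (abs_sub _ _) ?_) ?_)
    · rw [abs_mul, abs_of_nonneg (hqt0 v hvu)]
    · rw [abs_mul, abs_of_nonneg hD'0]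
  have hsum := Finset.sum_le_sum hv1
  rw [Finset.sum_add_distrib, Finset.sum_add_distrib, ← Finset.sum_mul, ← Finset.mul_sum] at hsum
  have h9 : (∑ v ∈ T.ch u, qt T s.a s.q v) * |D' - D| ≤ 3 * (R + |zz T s' u - zz T s u|) :=
    mul_le_mul hqt3 hDD (abs_nonneg _) (by norm_num)
  linarith

end Crest.Agent.KS.H
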