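import Crest.Agent.R314H.Defs

/-! Row 314, part H, task NC: change of the classes. -/

set_option autoImplicit false

namespace Crest.Agent.KS.H

open Finset
open scoped Classical

namespace NC

theorem keep_case (G G' g g' A B q L W m : ℝ) (hG : |G' - G| ≤ 9 * W) (hg : |g' - g| ≤ 9 * m)
    (hA0 : 0 ≤ A) (hA : A ≤ 160000 * L * q) (hB0 : 0 ≤ B) (hB : B ≤ 560000 * L) :
    G' * A - g' * B ≤ G * A - g * B + 1440000 * L * W * q + 5040000 * L * m := by
  have h1 := (abs_le.1 hG).2
  have h2 := (abs_le.1 hg).1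
  have hW : 0 ≤ 9 * W := (abs_nonneg _).trans hG
  have hm : 0 ≤ 9 * m := (abs_nonneg _).trans hg
  have h3 : (G' - G) * A ≤ 9 * W * A := mul_le_mul_of_nonneg_right h1 hA0
  have h4 : 9 * W * A ≤ 9 * W * (160000 * L * q) := mul_le_mul_of_nonneg_left hA hW
  have h5 : (g - g') * B ≤ 9 * m * B := mul_le_mul_of_nonneg_right (by linarith) hB0
  have h6 : 9 * m * B ≤ 9 * m * (560000 * L) := mul_le_mul_of_nonneg_left hB hm
  nlinarith

theorem reset_case (G G' g A B q L W m : ℝ) (hG0 : 0 ≤ G) (hG : |G' - G| ≤ 9 * W) (hg : g ≤ 9 * m)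
    (hm : 0 ≤ m) (hq : 0 ≤ q) (hA : 4 * q ≤ A) (hB0 : 0 ≤ B) (hB : B ≤ 560000 * L) (hL : 1 ≤ L) :
    G' * q ≤ G * A - g * B + 1440000 * L * W * q + 5040000 * L * m := by
  have h1 := (abs_le.1 hG).2
  have hW : 0 ≤ 9 * W := (abs_nonneg _).trans hG
  have h3 : (G' - G) * q ≤ 9 * W * q := mul_le_mul_of_nonneg_right h1 hq
  have h4 : G * q ≤ G * A := mul_le_mul_of_nonneg_left (by linarith) hG0
  have h5 : g * B ≤ 9 * m * B := mul_le_mul_of_nonneg_right hg hB0
  have h6 : 9 * m * B ≤ 9 * m * (560000 * L) := mul_le_mul_of_nonneg_left hB (by linarith)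
  have h7 : 9 * W * q * 1 ≤ 9 * W * q * (160000 * L) :=
    mul_le_mul_of_nonneg_left (by linarith) (mul_nonneg hW hq)
  nlinarith

end NC

theorem NC_proof (hTree : TreeStmt) (hOne : OneStmt) (hKap : KapStmt) (hEp1 : Ep1Stmt) : NcStmt := by
  intro V _ T k p r a a' q hk hp hr ha ha' hq u
  obtain ⟨-, -, hal, -⟩ := hTree V T
  obtain ⟨hL, -, -, hAB, hAB0, -, hone⟩ := hOne
  obtain ⟨e1, e2, e3, e4, -⟩ := hEp1 V T k a a' hk ha ha'
  have hL1 := hL k hk
  have hgam : ∀ v, 0 ≤ Gam p v ∧ Gam p v ≤ MM p v ∧ ∀ s, ZZ p s v = MM p v - s * Gam p v :=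
    fun v => (hone V k p r v (hp.p01 v)).1
  have hM : ∀ v, 0 ≤ MM p v := fun v => (hgam v).1.trans (hgam v).2.1
  have hg : ∀ b : V → ℝ, ParOk T k b → ∀ v, 0 ≤ gt T p r b v ∧ gt T p r b v ≤ 9 * MM p v := by
    intro b hb v
    unfold gt
    split_ifs
    · have := ((hone V k p r v (hp.p01 v)).2 (hr v)).2.2.2 _ (hb.s01 (T.par v)).1
        (hb.s01 (T.par v)).2
      exact ⟨this.2.1, by linarith [this.2.2, (hgam v).2.1]⟩
    · exact ⟨le_rfl, by linarith [hM v]⟩
  have hsm : ∀ v, 0 ≤ sig T k a a' v * MM p v := fun v => mul_nonneg (e1 v).2.1 (hM v)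
  have hbig : ∀ v, 1 ≤ sig T k a a' v → MM p v ≤ sig T k a a' v * MM p v := fun v h => by
    nlinarith [hM v]
  have hdg : ∀ v, |gt T p r a' v - gt T p r a v| ≤ 9 * (sig T k a a' v * MM p v) := by
    intro v
    by_cases h : al T a v ↔ al T a' v
    · by_cases h1 : al T a v
      · have h2 : al T a' v := h.1 h1
        have h3 := e2 (T.par v) ((hal a v).1 h1).2 ((hal a' v).1 h2).2
        have h4 : gt T p r a' v - gt T p r a v =
            (ss T k a' (T.par v) - ss T k a (T.par v)) * Gam p v := by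
          unfold gt
          rw [if_pos h1, if_pos h2, (hgam v).2.2, (hgam v).2.2]
          ring
        rw [h4, abs_mul, abs_of_nonneg (hgam v).1]
        calc _ ≤ (9 * sig T k a a' v) * MM p v :=
              mul_le_mul (by linarith [(e1 v).2.2]) (hgam v).2.1 (hgam v).1
                (by linarith [(e1 v).2.1])
          _ = _ := by ring
      · have h2 : ¬ al T a' v := fun h2 => h1 (h.2 h2)
        unfold gt
        rw [if_neg h1, if_neg h2, sub_zero, abs_zero]
        linarith [hsm v]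
    · have := hbig v (e3 v h)
      have h1 := hg a ha v
      have h2 := hg a' ha' v
      rw [abs_le]
      constructor <;> linarith [h1.1, h1.2, h2.1, h2.2]
  set W := ∑ v ∈ T.ch u, sig T k a a' v * MM p v with hW
  have hW0 : 0 ≤ W := Finset.sum_nonneg fun v _ => hsm v
  have hdG : |GG T p r a' u - GG T p r a u| ≤ 9 * W := by
    unfold GG
    rw [← Finset.sum_sub_distrib, hW, Finset.mul_sum]
    exact (Finset.abs_sum_le_sum_abs _ _).trans (Finset.sum_le_sum fun v _ => hdg v)
  have hG0 : 0 ≤ GG T p r a u := Finset.sum_nonneg fun v _ => (hg a ha v).1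
  have hq2 : ∀ v ∈ T.ch u, q v ≤ 2 := fun v hv =>
    (Finset.single_le_sum (fun y _ => hq.nonneg y) hv).trans (hq.sum u)
  have key : ∀ v ∈ T.ch u,
      (if lt T a' v then GG T p r a' u * AA (ee T k a' v) (dd T k a' v) (q0 T a a' q v) -
          gt T p r a' v * BB (ee T k a' v) (dd T k a' v) (q0 T a a' q v) else 0) +
        GG T p r a' u * |q0 T a a' q v - q v| ≤
      (if lt T a v then GG T p r a u * AA (ee T k a v) (dd T k a v) (q v) -
          gt T p r a v * BB (ee T k a v) (dd T k a v) (q v) else 0) +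
        1440000 * LL k * W * q v + 5040000 * LL k * (sig T k a a' v * MM p v) := by
    intro v hv
    have hl : lt T a v → 4 * q v ≤ AA (ee T k a v) (dd T k a v) (q v) ∧
        AA (ee T k a v) (dd T k a v) (q v) ≤ 160000 * LL k * q v ∧
        0 ≤ BB (ee T k a v) (dd T k a v) (q v) ∧
        BB (ee T k a v) (dd T k a v) (q v) ≤ 560000 * LL k := by
      intro h
      obtain ⟨l1, l2, -, l4⟩ := ha.light v h
      have hc : 0 < cc / LL k := div_pos (by unfold cc; norm_num) (by linarith)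
      have he : 0 < ee T k a v := hc.trans_le l1
      obtain ⟨m1, m2, m3⟩ := hAB _ _ (q v) he (ha.e01 v).2 l2 (hq.nonneg v)
      refine ⟨m1, m2.trans ?_, m3, l4 _ (hq.nonneg v) (hq2 v hv)⟩
      calc 8 * q v / ee T k a v ≤ 8 * q v / (cc / LL k) :=
            div_le_div_of_nonneg_left (by linarith [hq.nonneg v]) hc l1
        _ = 160000 * LL k * q v := by
            unfold cc
            field_simp
            ring
    by_cases hkp : keep T a a' v
    · obtain ⟨k1, k2, k3, k4⟩ := id hkp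
      have hq0 : q0 T a a' q v = q v := by unfold q0; rw [if_pos hkp]
      have he : ee T k a' v = ee T k a v := by
        unfold ee
        rw [if_pos k1, if_pos k2, k3, k4]
      have hd : dd T k a' v = dd T k a v := by
        unfold dd
        rw [k3, k4]
      rw [if_pos k1, if_pos k2, hq0, he, hd, sub_self, abs_zero, mul_zero, add_zero]
      obtain ⟨m1, m2, m3, m4⟩ := hl k1
      exact NC.keep_case _ _ _ _ _ _ _ _ _ _ hdG (hdg v) (by linarith [hq.nonneg v]) m2 m3 m4
    · have hq0 : q0 T a a' q v = 0 := by unfold q0; rw [if_neg hkp]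
      rw [hq0, (hAB0 _ _).1, (hAB0 _ _).2, mul_zero, mul_zero, sub_zero, ite_self, zero_add, zero_sub,
        abs_neg, abs_of_nonneg (hq.nonneg v)]
      by_cases h : lt T a v
      · rw [if_pos h]
        obtain ⟨m1, -, m3, m4⟩ := hl h
        have h1 := hbig v (e4 v (Or.inl h) hkp)
        exact NC.reset_case _ _ _ _ _ _ _ _ _ hG0 hdG (by linarith [(hg a ha v).2]) (hsm v)
          (hq.nonneg v) m1 m3 m4 hL1
      · rw [if_neg h, hq.zero v h]
        have := mul_nonneg (by linarith : (0 : ℝ) ≤ 5040000 * LL k) (hsm v)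
        linarith
  have hsum := Finset.sum_le_sum key
  rw [Finset.sum_add_distrib, Finset.sum_add_distrib, Finset.sum_add_distrib, ← Finset.mul_sum,
    ← Finset.mul_sum, ← Finset.mul_sum, ← hW] at hsum
  rw [(hKap V T k a' (q0 T a a' q)).2 p r u, (hKap V T k a q).2 p r u]
  have hLW : 0 ≤ LL k * W := mul_nonneg (by linarith) hW0
  have h1 : 1440000 * LL k * W * ∑ v ∈ T.ch u, q v ≤ 1440000 * LL k * W * 2 :=
    mul_le_mul_of_nonneg_left (hq.sum u) (by nlinarith)
  have h2 : LL k * (GG T p r a' u - GG T p r a u) ≤ LL k * (9 * W) :=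
    mul_le_mul_of_nonneg_left (abs_le.1 hdG).2 (by linarith)
  nlinarith

end Crest.Agent.KS.H
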