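import Crest.Agent.R314H.Defs

/-! Row 314, part H: NODE. -/

set_option autoImplicit false

namespace Crest.Agent.KS.H

open Finset
open scoped Classical

namespace NODE

variable {V : Type} [Fintype V]

theorem sig_nonneg (T : Tr V) (k : ℕ) (a a' : V → ℝ) (hL : 1 ≤ LL k) (ha : ∀ v, 0 ≤ a v)
    (ha' : ∀ v, 0 ≤ a' v) (v : V) : 0 ≤ sig T k a a' v := by
  unfold sig ps
  refine Finset.sum_nonneg fun n _ => ?_
  have hev : ∀ y, 0 ≤ ev a a' y := fun y => by unfold ev; split_ifs <;> norm_num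
  have heta : ∀ y, 0 ≤ eta T a a' y := fun y => by unfold eta; split_ifs <;> norm_num
  unfold eps
  refine add_nonneg (add_nonneg (heta _) (hev _)) ?_
  split_ifs
  · refine mul_nonneg (div_nonneg (by unfold cc; norm_num) (mul_nonneg (ha' _) (by linarith))) ?_
    exact Finset.sum_nonneg fun y _ => mul_nonneg (hev y) (add_nonneg (ha y) (ha' y))
  · exact le_rfl

theorem gt_nonneg (hOne : OneStmt) (T : Tr V) {k : ℕ} (p : V → Fin k → ℝ) (s : St V k)
    (h : Inv T p s) (v : V) : 0 ≤ gt T p s.r s.a v := by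
  unfold gt
  split_ifs
  · exact ((((hOne.2.2.2.2.2.2 V k p s.r v (h.good.p01 v)).2 (h.rb v)).2.2.2 _
      (h.par.s01 _).1 (h.par.s01 _).2).2.1)
  · exact le_rfl

theorem move1 (hKap : KapStmt) (T : Tr V) {k : ℕ} (hk : 2 ≤ k) (p r r' : V → Fin k → ℝ)
    (a q : V → ℝ) (ha : ParOk T k a) (hq : QOk T a q) (u : V) :
    psi T p r' a q u - psi T p r a q u ≤ 1760000 * LL k * ∑ v ∈ T.ch u, |MM r' v - MM r v| := by
  unfold psi
  rw [← Finset.sum_sub_distrib, Finset.mul_sum]
  refine Finset.sum_le_sum fun v _ => ?_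
  obtain ⟨h0, h1⟩ := (hKap V T k a q).1 hk ha hq v
  have hd : gt T p r' a v - gt T p r a v ≤ |MM r' v - MM r v| := by
    unfold gt
    split_ifs
    · have := le_abs_self (MM r' v - MM r v)
      linarith
    · simp
  have h2 := abs_nonneg (MM r' v - MM r v)
  calc kap T k a q v * gt T p r' a v - kap T k a q v * gt T p r a v
      = kap T k a q v * (gt T p r' a v - gt T p r a v) := by ring
    _ ≤ kap T k a q v * |MM r' v - MM r v| := mul_le_mul_of_nonneg_left hd h0
    _ ≤ 1760000 * LL k * |MM r' v - MM r v| := mul_le_mul_of_nonneg_right h1 h2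

theorem move3 (hOne : OneStmt) (hKap : KapStmt) (T : Tr V) {k : ℕ} (hk : 2 ≤ k)
    (p' : V → Fin k → ℝ) (s : St V k) (hq : ∀ v, 0 ≤ s.q v) (hI : Inv T p' (upd T p' s)) (u : V) :
    psi T p' (upd T p' s).r (upd T p' s).a (upd T p' s).q u +
      2 * GG T p' (upd T p' s).r (upd T p' s).a u *
        ∑ v ∈ T.ch u, |(upd T p' s).q v - q0 T s.a (upd T p' s).a s.q v| ≤
      psi T p' (upd T p' s).r (upd T p' s).a (q0 T s.a (upd T p' s).a s.q) u := by
  have hL : 1 ≤ LL k := hOne.1 k hk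
  rw [(hKap V T k _ (upd T p' s).q).2, (hKap V T k _ (q0 T s.a (upd T p' s).a s.q)).2, mul_assoc 2,
    add_assoc, ← mul_add, Finset.mul_sum _ _ (GG T p' (upd T p' s).r (upd T p' s).a u),
    ← Finset.sum_add_distrib]
  refine add_le_add le_rfl (mul_le_mul_of_nonneg_left (Finset.sum_le_sum fun v hv => ?_) (by norm_num))
  have hpar : T.par v = u := by
    unfold Tr.ch at hv
    exact (Finset.mem_filter.1 hv).2.2
  by_cases hl : lt T (upd T p' s).a v
  · rw [if_pos hl, if_pos hl]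
    have hq' : (upd T p' s).q v =
        prj (ee T k (upd T p' s).a v) (dd T k (upd T p' s).a v)
          (gt T p' (upd T p' s).r (upd T p' s).a v) (GG T p' (upd T p' s).r (upd T p' s).a u)
          (q0 T s.a (upd T p' s).a s.q v) := by
      rw [← hpar]
      exact if_pos hl
    obtain ⟨h1, h2, -, -⟩ := hI.par.light v hl
    have he : 0 < ee T k (upd T p' s).a v :=
      lt_of_lt_of_le (div_pos (by unfold cc; norm_num) (by linarith)) h1
    have hg := gt_nonneg hOne T p' _ hI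
    have hgG : gt T p' (upd T p' s).r (upd T p' s).a v ≤ GG T p' (upd T p' s).r (upd T p' s).a u :=
      Finset.single_le_sum (f := fun v => gt T p' (upd T p' s).r (upd T p' s).a v)
        (fun y _ => hg y) hv
    have hq0 : 0 ≤ q0 T s.a (upd T p' s).a s.q v := by
      unfold q0
      split_ifs
      · exact hq v
      · exact le_rfl
    have := (hOne.2.2.2.2.2.1 _ _ _ _ _ he (hI.par.e01 v).2 h2 (hg v) hgG hq0).2.2.2.2
    rw [← hq'] at this
    linarith
  · rw [if_neg hl, if_neg hl]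
    have h1 : (upd T p' s).q v = 0 := hI.qok.zero v hl
    have h2 : q0 T s.a (upd T p' s).a s.q v = 0 := if_neg fun h => hl h.2.1
    rw [h1, h2]
    simp

end NODE

theorem NODE_proof (hOne : OneStmt) (hInv : InvStmt) (hKap : KapStmt) (hNa : NaStmt)
    (hNc : NcStmt) : NodeStmt := by
  intro V _ T k p p' s hk hI hG u
  have hL : 1 ≤ LL k := hOne.1 k hk
  have hI' : Inv T p' (upd T p' s) := hInv V T k p' s hk hG
    (fun v i => ⟨(hI.good.p01 v i).1.trans (hI.rb v i).1, (hI.rb v i).2.2⟩) hI.qok.nonneg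
  have h0 := hNa V T k p p' s (upd T p' s) hk hI hI' u
  have h1 := NODE.move1 hKap T hk p' s.r (upd T p' s).r s.a s.q hI.par hI.qok u
  have h2 := hNc V T k p' (upd T p' s).r s.a (upd T p' s).a s.q hk hG hI'.rb hI.par hI'.par hI.qok u
  have h3 := NODE.move3 hOne hKap T hk p' s hI.qok.nonneg hI' u
  have hG0 : 0 ≤ GG T p' (upd T p' s).r (upd T p' s).a u :=
    Finset.sum_nonneg fun y _ => NODE.gt_nonneg hOne T p' _ hI' y
  have h4 : ∑ v ∈ T.ch u, |(upd T p' s).q v - s.q v| ≤
      ∑ v ∈ T.ch u, |(upd T p' s).q v - q0 T s.a (upd T p' s).a s.q v| +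
        ∑ v ∈ T.ch u, |q0 T s.a (upd T p' s).a s.q v - s.q v| := by
    rw [← Finset.sum_add_distrib]
    exact Finset.sum_le_sum fun v _ => abs_sub_le _ _ _
  have h5 := mul_le_mul_of_nonneg_left h4 (mul_nonneg (by norm_num : (0 : ℝ) ≤ 2) hG0)
  have hA : 0 ≤ ∑ v ∈ T.ch u, |MM (upd T p' s).r v - MM s.r v| :=
    Finset.sum_nonneg fun v _ => abs_nonneg _
  have hB : 0 ≤ ∑ v ∈ T.ch u, sig T k s.a (upd T p' s).a v * MM p' v :=
    Finset.sum_nonneg fun v _ => mul_nonneg
      (NODE.sig_nonneg T k _ _ hL hI.par.nonneg hI'.par.nonneg v)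
      (Finset.sum_nonneg fun i _ => sq_nonneg _)
  rw [Finset.sum_add_distrib]
  have hA' := mul_le_mul_of_nonneg_right hL hA
  have hB' := mul_le_mul_of_nonneg_right hL hB
  nlinarith

end Crest.Agent.KS.H
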