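import Mathlib

/-! Row 314 (H): elementary real-variable lemmas (band projection, slot tracker, size classes). -/

set_option autoImplicit false

namespace Crest.Agent.R314H

/-- primitive of `8 (x + d/2) / (e x + d)` -/
noncomputable def fA (e d x : ℝ) : ℝ :=
  8 * x / e - 8 * d * (1 - e / 2) / e ^ 2 * Real.log (1 + e * x / d)

/-- primitive of `8 (1 + 3e/4) / (e x + d)` -/
noncomputable def fB (e d x : ℝ) : ℝ := 8 * (1 + 3 * e / 4) / e * Real.log (1 + e * x / d)

/-- projection of `q` onto the band `(1+e/2) g - d G ≤ q G ≤ (1+e) g` (value `0` if `G = 0`) -/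
noncomputable def proj (e d g G q : ℝ) : ℝ :=
  max (((1 + e / 2) * g - d * G) / G) (min q ((1 + e) * g / G))

@[simp] theorem fA_zero (e d : ℝ) : fA e d 0 = 0 := by simp [fA]

@[simp] theorem fB_zero (e d : ℝ) : fB e d 0 = 0 := by simp [fB]

theorem log_arg_nonneg {e d x : ℝ} (he : 0 < e) (hd : 0 < d) (hx : 0 ≤ x) :
    0 ≤ Real.log (1 + e * x / d) :=
  Real.log_nonneg (by have : 0 ≤ e * x / d := by positivity
                      linarith)

theorem fA_le {e d x : ℝ} (he : 0 < e) (he1 : e ≤ 1) (hd : 0 < d) (hx : 0 ≤ x) :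
    fA e d x ≤ 8 * x / e := by
  have h1 := log_arg_nonneg he hd hx
  have h2 : 0 ≤ 8 * d * (1 - e / 2) / e ^ 2 := by
    apply div_nonneg _ (by positivity)
    have : 0 ≤ 1 - e / 2 := by linarith
    positivity
  unfold fA
  nlinarith [mul_nonneg h2 h1]

theorem fA_ge {e d x : ℝ} (he : 0 < e) (he1 : e ≤ 1) (hd : 0 < d) (hx : 0 ≤ x) :
    4 * x ≤ fA e d x := by
  have h0 : 0 ≤ e * x / d := by positivity
  have h1 : Real.log (1 + e * x / d) ≤ e * x / d := by
    have := Real.log_le_sub_one_of_pos (x := 1 + e * x / d) (by linarith)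
    linarith
  have h2 : 0 ≤ 8 * d * (1 - e / 2) / e ^ 2 := by
    apply div_nonneg _ (by positivity)
    have : 0 ≤ 1 - e / 2 := by linarith
    positivity
  have h3 := mul_le_mul_of_nonneg_left h1 h2
  have h4 : 8 * d * (1 - e / 2) / e ^ 2 * (e * x / d) = 8 * x / e - 4 * x := by
    field_simp
    ring
  unfold fA
  linarith

theorem fA_nonneg {e d x : ℝ} (he : 0 < e) (he1 : e ≤ 1) (hd : 0 < d) (hx : 0 ≤ x) :
    0 ≤ fA e d x := le_trans (by positivity) (fA_ge he he1 hd hx)

theorem fB_nonneg {e d x : ℝ} (he : 0 < e) (hd : 0 < d) (hx : 0 ≤ x) : 0 ≤ fB e d x := by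
  have h1 := log_arg_nonneg he hd hx
  unfold fB
  positivity

/-- general bound on `fB` -/
theorem fB_le_log {e d x : ℝ} (he : 0 < e) (he1 : e ≤ 1) (hd : 0 < d) (hx : 0 ≤ x) :
    fB e d x ≤ 14 / e * Real.log (1 + e * x / d) := by
  have h1 := log_arg_nonneg he hd hx
  unfold fB
  apply mul_le_mul_of_nonneg_right _ h1
  apply div_le_div_of_nonneg_right _ he.le
  linarith

/-- the bound on `fB` for the parameters of a light child: `R = 8 a_u / a_v ≥ 1`,
`e = c (1 + log R) / L`, `d = (c / 32) a_v / (a_u L) = c / (4 R L)` -/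
theorem fB_le_light {c L R x : ℝ} (hc : 0 < c) (hL : 0 < L) (hR : 1 ≤ R)
    (he1 : c * (1 + Real.log R) / L ≤ 1) (hx : 0 ≤ x) (hx2 : x ≤ 2) :
    fB (c * (1 + Real.log R) / L) (c / (4 * R * L)) x ≤ 42 * L / c := by
  have hl0 : 0 ≤ Real.log R := Real.log_nonneg hR
  have hl : 0 < 1 + Real.log R := by linarith
  have hR0 : 0 < R := by linarith
  have he : 0 < c * (1 + Real.log R) / L := by positivity
  have hd : 0 < c / (4 * R * L) := by positivity
  refine le_trans (fB_le_log he he1 hd hx) ?_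
  have h1 : c * (1 + Real.log R) / L * x / (c / (4 * R * L)) = 4 * R * (1 + Real.log R) * x := by
    field_simp
  rw [h1]
  have h2 : 1 + Real.log R ≤ R := by
    have := Real.log_le_sub_one_of_pos hR0
    linarith
  have h3 : 1 + 4 * R * (1 + Real.log R) * x ≤ 9 * R ^ 2 := by
    have a1 : 4 * R * (1 + Real.log R) * x ≤ 4 * R * R * 2 := by
      apply mul_le_mul _ hx2 hx (by positivity)
      exact mul_le_mul_of_nonneg_left h2 (by positivity)
    nlinarith
  have h4 : Real.log (1 + 4 * R * (1 + Real.log R) * x) ≤ 3 * (1 + Real.log R) := by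
    have b1 : Real.log (1 + 4 * R * (1 + Real.log R) * x) ≤ Real.log (9 * R ^ 2) :=
      Real.log_le_log (by positivity) h3
    have b2 : Real.log (9 * R ^ 2) = Real.log 9 + 2 * Real.log R := by
      rw [Real.log_mul (by norm_num) (by positivity), Real.log_pow]
      norm_num
    have b3 : Real.log 9 ≤ 3 := by
      rw [Real.log_le_iff_le_exp (by norm_num)]
      have := Real.add_one_le_exp (1 : ℝ)
      have h9 : Real.exp 3 = Real.exp 1 * Real.exp 1 * Real.exp 1 := by
        rw [← Real.exp_add, ← Real.exp_add]; norm_num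
      have h27 := Real.exp_one_gt_d9
      rw [h9]
      nlinarith
    linarith
  calc 14 / (c * (1 + Real.log R) / L) * Real.log (1 + 4 * R * (1 + Real.log R) * x)
      ≤ 14 / (c * (1 + Real.log R) / L) * (3 * (1 + Real.log R)) :=
        mul_le_mul_of_nonneg_left h4 (by positivity)
    _ = 42 * L / c := by field_simp; ring

/-- convexity of the potential in the share -/
theorem pot_tangent {e d g G x y : ℝ} (he : 0 < e) (he1 : e ≤ 1) (hd : 0 < d) (hg : 0 ≤ g)
    (hG : 0 ≤ G) (hx : 0 ≤ x) (hy : 0 ≤ y) :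
    G * fA e d x - g * fB e d x +
        (y - x) * (8 * (G * x + G * d / 2 - (1 + 3 * e / 4) * g) / (d + e * x)) ≤
      G * fA e d y - g * fB e d y := by
  have hx' : 0 < 1 + e * x / d := by positivity
  have hy' : 0 < 1 + e * y / d := by positivity
  have hdx : 0 < d + e * x := by positivity
  have h1 : Real.log (1 + e * y / d) - Real.log (1 + e * x / d) ≤ e * (y - x) / (d + e * x) := by
    rw [← Real.log_div hy'.ne' hx'.ne']
    have := Real.log_le_sub_one_of_pos (div_pos hy' hx')
    have h2 : (1 + e * y / d) / (1 + e * x / d) - 1 = e * (y - x) / (d + e * x) := by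
      field_simp
      ring
    linarith
  set κ : ℝ := G * (8 * d * (1 - e / 2) / e ^ 2) + g * (8 * (1 + 3 * e / 4) / e) with hκ
  have hκ0 : 0 ≤ κ := by
    have : 0 ≤ 1 - e / 2 := by linarith
    positivity
  have h3 := mul_le_mul_of_nonneg_left h1 hκ0
  have h4 : (y - x) * (8 * (G * x + G * d / 2 - (1 + 3 * e / 4) * g) / (d + e * x)) =
      G * (8 * y / e) - G * (8 * x / e) - κ * (e * (y - x) / (d + e * x)) := by
    rw [hκ]
    field_simp
    ring
  have h5 : ∀ z, G * fA e d z - g * fB e d z = G * (8 * z / e) - κ * Real.log (1 + e * z / d) := by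
    intro z
    rw [hκ]
    unfold fA fB
    ring
  rw [h5, h5, h4]
  linarith

theorem proj_zero (e d g q : ℝ) (hq : 0 ≤ q) : proj e d g 0 q = 0 := by
  simp [proj, hq]

theorem proj_nonneg {e d g G q : ℝ} (he : 0 ≤ e) (hg : 0 ≤ g) (hG : 0 ≤ G) (hq : 0 ≤ q) :
    0 ≤ proj e d g G q :=
  le_max_of_le_right (le_min hq (by positivity))

theorem proj_upper {e d g G q : ℝ} (he : 0 ≤ e) (hd : 0 ≤ d) (hg : 0 ≤ g) (hG : 0 ≤ G) :
    proj e d g G q * G ≤ (1 + e) * g := by
  rcases hG.eq_or_lt with h | h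
  · rw [← h, mul_zero]; positivity
  · rw [← le_div_iff₀ h]
    apply max_le _ (min_le_right _ _)
    apply div_le_div_of_nonneg_right _ hG
    nlinarith [mul_nonneg he hg, mul_nonneg hd hG]

theorem proj_lower {e d g G q : ℝ} (hG : 0 ≤ G) (hgG : g ≤ G) (he : 0 ≤ e) :
    (1 + e / 2) * g - d * G ≤ proj e d g G q * G := by
  rcases hG.eq_or_lt with h | h
  · rw [← h, mul_zero, mul_zero, sub_zero]
    rw [← h] at hgG
    nlinarith
  · rw [← div_le_iff₀ h]
    exact le_max_left _ _

theorem proj_le_two {e d g G q : ℝ} (he : 0 ≤ e) (he1 : e ≤ 1) (hd : 0 ≤ d) (hg : 0 ≤ g)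
    (hgG : g ≤ G) (hq : 0 ≤ q) : proj e d g G q ≤ 2 := by
  have hG : 0 ≤ G := hg.trans hgG
  rcases hG.eq_or_lt with h | h
  · rw [← h, proj_zero _ _ _ _ hq]; norm_num
  · have := proj_upper (q := q) he hd hg hG
    have h2 : proj e d g G q * G ≤ 2 * G := by nlinarith
    exact le_of_mul_le_mul_right h2 h

/-- the projection onto the band is paid by the potential -/
theorem band_paid {e d g G q : ℝ} (he : 0 < e) (he1 : e ≤ 1) (hd : 0 < d) (hg : 0 ≤ g)
    (hgG : g ≤ G) (hq : 0 ≤ q) :
    G * fA e d (proj e d g G q) - g * fB e d (proj e d g G q) + G * |proj e d g G q - q| ≤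
      G * fA e d q - g * fB e d q := by
  have hG : 0 ≤ G := hg.trans hgG
  rcases hG.eq_or_lt with h | h
  · have hg0 : g = 0 := le_antisymm (h ▸ hgG) hg
    rw [← h, hg0]; simp
  have hp := proj_nonneg (d := d) he.le hg hG hq
  have ht := pot_tangent he he1 hd hg hG hp hq
  set x := proj e d g G q with hx
  have hdx : 0 < d + e * x := by positivity
  have key : G * |x - q| ≤
      (q - x) * (8 * (G * x + G * d / 2 - (1 + 3 * e / 4) * g) / (d + e * x)) := by
    rcases lt_trichotomy q x with h1 | h1 | h1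
    · -- moved up: `x` is the lower end
      have hxl : x = ((1 + e / 2) * g - d * G) / G := by
        rcases max_choice (((1 + e / 2) * g - d * G) / G) (min q ((1 + e) * g / G)) with h2 | h2
        · exact h2
        · exfalso
          have : x ≤ q := by rw [hx, proj, h2]; exact min_le_left _ _
          linarith
      have hxG : G * x = (1 + e / 2) * g - d * G := by rw [hxl]; field_simp
      have h3 : 8 * (G * x + G * d / 2 - (1 + 3 * e / 4) * g) / (d + e * x) ≤ -G := by
        rw [div_le_iff₀ hdx]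
        have : -G * (d + e * x) = -(G * d) - e * (G * x) := by ring
        rw [this, hxG]
        nlinarith [mul_nonneg he.le hg, mul_nonneg hd.le hG, mul_nonneg he.le (mul_nonneg hd.le hG),
          mul_nonneg (mul_nonneg he.le hg) (sub_nonneg.2 he1)]
      rw [abs_of_pos (by linarith)]
      nlinarith
    · rw [h1]; simp
    · -- moved down: `x` is the upper end
      have hxu : x = (1 + e) * g / G := by
        have h2 : min q ((1 + e) * g / G) ≤ x := le_max_right _ _
        have h3 : (1 + e) * g / G ≤ x := by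
          rcases min_choice q ((1 + e) * g / G) with h4 | h4
          · rw [h4] at h2; linarith
          · rw [h4] at h2; exact h2
        apply le_antisymm _ h3
        rw [le_div_iff₀ h]
        exact proj_upper he.le hd.le hg hG
      have hxG : G * x = (1 + e) * g := by rw [hxu]; field_simp
      have h3 : G ≤ 8 * (G * x + G * d / 2 - (1 + 3 * e / 4) * g) / (d + e * x) := by
        rw [le_div_iff₀ hdx]
        have : G * (d + e * x) = G * d + e * (G * x) := by ring
        rw [this, hxG]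
        nlinarith [mul_nonneg he.le hg, mul_nonneg hd.le hG,
          mul_nonneg (mul_nonneg he.le hg) (sub_nonneg.2 he1)]
      rw [abs_of_neg (by linarith)]
      nlinarith
  linarith

/-! ### slot tracker -/

/-- the lazy tracker: `r` is clamped to `[p, 2p]` -/
noncomputable def clamp (p r : ℝ) : ℝ := max p (min r (2 * p))

/-- its potential, affine in `p` -/
def theta (r p : ℝ) : ℝ := 3 * r ^ 2 - 8 * p * r + 5 * p

theorem clamp_ge (p r : ℝ) : p ≤ clamp p r := le_max_left _ _

theorem clamp_le {p : ℝ} (hp : 0 ≤ p) (r : ℝ) : clamp p r ≤ 2 * p :=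
  max_le (by linarith) (min_le_right _ _)

theorem clamp_le_one {p r : ℝ} (hp : p ≤ 1) (hr : r ≤ 1) : clamp p r ≤ 1 :=
  max_le hp ((min_le_left _ _).trans hr)

theorem clamp_nonneg {p : ℝ} (hp : 0 ≤ p) (r : ℝ) : 0 ≤ clamp p r := hp.trans (clamp_ge p r)

theorem theta_nonneg {r p : ℝ} (hr1 : r ≤ 1) (hp0 : 0 ≤ p) (hp1 : p ≤ 1) : 0 ≤ theta r p := by
  unfold theta
  have h1 : 3 * r ^ 2 - 8 * p * r + 5 * p =
      (1 - p) * (3 * r ^ 2) + p * ((1 - r) * (5 - 3 * r)) := by ring
  rw [h1]
  have : 0 ≤ 1 - p := by linarith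
  have : 0 ≤ 1 - r := by linarith
  have : 0 ≤ 5 - 3 * r := by linarith
  positivity

theorem theta_eq (r p : ℝ) : theta r p = 3 * r ^ 2 + (5 - 8 * r) * p := by unfold theta; ring

theorem theta_coeff_abs {r : ℝ} (hr0 : 0 ≤ r) (hr1 : r ≤ 1) : |5 - 8 * r| ≤ 5 := by
  rw [abs_le]; constructor <;> linarith

theorem theta_le {r p : ℝ} (hp0 : 0 ≤ p) (h1 : p ≤ r) (h2 : r ≤ 2 * p) :
    theta r p ≤ 5 * p := by
  unfold theta
  nlinarith

/-- the clamp move is paid by `theta` -/
theorem clamp_paid {p r : ℝ} (hp : 0 ≤ p) (hr : 0 ≤ r) :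
    theta (clamp p r) p + |clamp p r ^ 2 - r ^ 2| ≤ theta r p := by
  unfold clamp theta
  rcases le_total r p with h | h
  · have h1 : max p (min r (2 * p)) = p := max_eq_left ((min_le_left _ _).trans h)
    rw [h1, abs_of_nonneg (by nlinarith)]
    nlinarith
  · rcases le_total r (2 * p) with h2 | h2
    · rw [min_eq_left h2, max_eq_right h]; simp
    · rw [min_eq_right h2, max_eq_right (by linarith), abs_of_nonpos (by nlinarith)]
      nlinarith

/-! ### size classes -/

/-- the class update: keep `a` if `ρ ≤ a ≤ 2ρ`, else reset to `3ρ/2` -/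
noncomputable def cls (ρ a : ℝ) : ℝ := if ρ ≤ a ∧ a ≤ 2 * ρ then a else 3 / 2 * ρ

theorem cls_ge {ρ : ℝ} (hρ : 0 ≤ ρ) (a : ℝ) : ρ ≤ cls ρ a := by
  unfold cls; split_ifs with h
  · exact h.1
  · linarith

theorem cls_le {ρ : ℝ} (hρ : 0 ≤ ρ) (a : ℝ) : cls ρ a ≤ 2 * ρ := by
  unfold cls; split_ifs with h
  · exact h.2
  · linarith

/-- an event (change of class) is paid by the potential `12 |2a/3 - ρ|` -/
theorem cls_paid {ρ a : ℝ} (hρ : 0 ≤ ρ) (ha : 0 ≤ a) :
    12 * |2 / 3 * cls ρ a - ρ| + (if cls ρ a = a then 0 else a + cls ρ a) ≤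
      12 * |2 / 3 * a - ρ| := by
  split_ifs with h
  · rw [h]; simp
  · have h1 : ¬ (ρ ≤ a ∧ a ≤ 2 * ρ) := by
      intro h2; exact h (by unfold cls; rw [if_pos h2])
    have h2 : cls ρ a = 3 / 2 * ρ := by unfold cls; rw [if_neg h1]
    rw [h2]
    have h3 : 2 / 3 * (3 / 2 * ρ) - ρ = 0 := by ring
    rw [h3, abs_zero]
    rcases not_and_or.1 h1 with h4 | h4
    · push Not at h4
      rw [abs_of_nonpos (by linarith)]
      linarith
    · push Not at h4
      rw [abs_of_nonneg (by linarith)]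
      linarith

end Crest.Agent.R314H
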