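import Crest.Agent.R314H.Defs
import Crest.Agent.R314H.Band

/-! Row 314 (H), task ONE. -/

set_option autoImplicit false

namespace Crest.Agent.KS.H

open Finset
open scoped Classical

namespace ONE

theorem AA_eq (e d q : ℝ) : AA e d q = R314H.fA e d q := by
  unfold AA R314H.fA; ring

theorem BB_eq (e d q : ℝ) : BB e d q = R314H.fB e d q := by
  unfold BB R314H.fB; ring

theorem prj_eq {e d g G q : ℝ} (he : 0 < e) (hg : 0 ≤ g) (hG : 0 ≤ G) (hq : 0 ≤ q) :
    prj e d g G q = R314H.proj e d g G q := by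
  unfold prj
  split_ifs with h
  · rw [h, R314H.proj_zero _ _ _ _ hq]
  · unfold R314H.proj
    have h0 : 0 ≤ min q ((1 + e) * g / G) := le_min hq (by positivity)
    rw [max_assoc, max_eq_right h0]

theorem one_le_LL (k : ℕ) (hk : 2 ≤ k) : 1 ≤ LL k := by
  unfold LL
  have h3 : (3 : ℝ) ≤ (k : ℝ) + 1 := by
    have : (2 : ℝ) ≤ k := by exact_mod_cast hk
    linarith
  rw [Real.le_log_iff_exp_le (by linarith)]
  have := Real.exp_one_lt_d9
  linarith

theorem cls_paid (a ρ : ℝ) (hρ : 0 ≤ ρ) (ha : 0 ≤ a) :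
    |2 / 3 * cls a ρ - ρ| + (if a = cls a ρ then 0 else 1) * (a + cls a ρ) / 11 ≤
      |2 / 3 * a - ρ| := by
  split_ifs with h
  · rw [← h]; simp
  · have h1 : ¬ (ρ ≤ a ∧ a ≤ 2 * ρ) := by
      intro h2; exact h (by unfold cls; rw [if_pos h2])
    have h2 : cls a ρ = 3 / 2 * ρ := by unfold cls; rw [if_neg h1]
    rw [h2]
    have h3 : 2 / 3 * (3 / 2 * ρ) - ρ = 0 := by ring
    rw [h3, abs_zero]
    rcases lt_or_ge a ρ with h4 | h4
    · have := neg_le_abs (2 / 3 * a - ρ)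
      linarith
    · have h5 : 2 * ρ < a := by
        by_contra h6
        exact h1 ⟨h4, not_lt.1 h6⟩
      have := le_abs_self (2 / 3 * a - ρ)
      linarith

theorem gap_le {p r : ℝ} (hp0 : 0 ≤ p) (hp1 : p ≤ 1) (h1 : p ≤ r) (h2 : r ≤ 2 * p) (h3 : r ≤ 1) :
    r ^ 2 - p ^ 2 ≤ 8 * (p ^ 2 * (1 - p)) := by
  rcases le_total p (5 / 8) with h | h
  · have : r ^ 2 ≤ (2 * p) ^ 2 := pow_le_pow_left₀ (by linarith) h2 2
    nlinarith [mul_nonneg (sq_nonneg p) (by linarith : (0 : ℝ) ≤ 5 / 8 - p)]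
  · have : r ^ 2 ≤ 1 := by nlinarith
    have h4 : 0 ≤ 8 * p ^ 2 - (1 + p) := by nlinarith
    nlinarith [mul_nonneg h4 (by linarith : (0 : ℝ) ≤ 1 - p)]

end ONE

theorem ONE_proof : OneStmt := by
  refine ⟨ONE.one_le_LL, ?_, ?_, ?_, ?_, ?_, ?_⟩
  · intro r p hr0 hr1 hp0 hp1
    exact ⟨R314H.theta_nonneg hr1 hp0 hp1,
      ⟨R314H.clamp_ge p r, R314H.clamp_le hp0 r, R314H.clamp_le_one hp1 hr1⟩,
      R314H.clamp_paid hp0 hr0⟩
  · intro a ρ hρ
    exact ⟨⟨R314H.cls_ge hρ a, R314H.cls_le hρ a⟩, ONE.cls_paid a ρ hρ⟩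
  · intro e d q he he1 hd hq
    rw [ONE.AA_eq, ONE.BB_eq]
    exact ⟨R314H.fA_ge he he1 hd hq, R314H.fA_le he he1 hd hq, R314H.fB_nonneg he hd hq⟩
  · intro e d
    rw [ONE.AA_eq, ONE.BB_eq]
    exact ⟨R314H.fA_zero e d, R314H.fB_zero e d⟩
  · intro e d g G q he he1 hd hg hgG hq
    have hG : 0 ≤ G := hg.trans hgG
    rw [ONE.prj_eq he hg hG hq]
    simp only [ONE.AA_eq, ONE.BB_eq]
    refine ⟨R314H.proj_nonneg he.le hg hG hq, R314H.proj_lower hG hgG he.le,
      R314H.proj_upper he.le hd.le hg hG, fun h => ?_, ?_⟩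
    · rw [h, R314H.proj_zero _ _ _ _ hq]
    · have := R314H.band_paid he he1 hd hg hgG hq
      linarith
  · intro V k p r v hp
    have hZ : ∀ s, ZZ p s v = MM p v - s * Gam p v := by
      intro s
      unfold ZZ MM Gam
      rw [Finset.mul_sum, ← Finset.sum_sub_distrib]
      refine Finset.sum_congr rfl fun i _ => ?_
      ring
    have hG0 : 0 ≤ Gam p v := by
      unfold Gam
      exact Finset.sum_nonneg fun i _ => mul_nonneg (sq_nonneg _) (by linarith [(hp i).2])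
    have hGM : Gam p v ≤ MM p v := by
      unfold Gam MM
      refine Finset.sum_le_sum fun i _ => ?_
      nlinarith [mul_nonneg (sq_nonneg (p v i)) (hp i).1]
    refine ⟨⟨hG0, hGM, hZ⟩, fun hr => ?_⟩
    have h1 : MM p v ≤ MM r v := by
      unfold MM
      exact Finset.sum_le_sum fun i _ => pow_le_pow_left₀ (hp i).1 (hr i).1 2
    have h2 : MM r v ≤ 4 * MM p v := by
      unfold MM
      rw [Finset.mul_sum]
      refine Finset.sum_le_sum fun i _ => ?_
      have := pow_le_pow_left₀ ((hp i).1.trans (hr i).1) (hr i).2.1 2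
      nlinarith
    have h3 : MM r v ≤ 2 * ∑ i, p v i := by
      unfold MM
      rw [Finset.mul_sum]
      refine Finset.sum_le_sum fun i _ => ?_
      have h0 : 0 ≤ r v i := (hp i).1.trans (hr i).1
      nlinarith [(hr i).2.1, (hr i).2.2]
    have h4 : MM r v - MM p v ≤ 8 * Gam p v := by
      unfold MM Gam
      rw [Finset.mul_sum, ← Finset.sum_sub_distrib]
      exact Finset.sum_le_sum fun i _ =>
        ONE.gap_le (hp i).1 (hp i).2 (hr i).1 (hr i).2.1 (hr i).2.2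
    refine ⟨h1, h2, h3, fun s hs0 hs1 => ?_⟩
    rw [hZ s]
    have e1 := mul_nonneg hs0 hG0
    have e2 := mul_le_mul_of_nonneg_right hs1 hG0
    refine ⟨by linarith, by linarith, by linarith⟩

end Crest.Agent.KS.H
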