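import Crest.Agent.R314H.Defs

/-! Row 314, part H: the parameters of the classes. -/

set_option autoImplicit false

namespace Crest.Agent.KS.H

open Finset
open scoped Classical

theorem par_log_ge {x y : ℝ} (hx : 0 < x) (hy : 0 < y) : 1 - y / x ≤ Real.log (x / y) := by
  have := Real.one_sub_inv_le_log_of_pos (div_pos hx hy)
  rwa [inv_div] at this

theorem par_BB {L R q : ℝ} (hL : 0 < L) (hR : 1 ≤ R) (e d : ℝ)
    (he : e = cc * (1 + Real.log R) / L) (hd : d = cc / (2 * R * L)) (he1 : e ≤ 1) (hq : 0 ≤ q)
    (hq2 : q ≤ 2) : BB e d q ≤ 560000 * L := by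
  have hc : (0 : ℝ) < cc := by unfold cc; norm_num
  have hl0 : 0 ≤ Real.log R := Real.log_nonneg hR
  have hl : 0 < 1 + Real.log R := by linarith
  have hR0 : 0 < R := by linarith
  have he0 : 0 < e := by rw [he]; positivity
  have h1 : e * q / d = 2 * R * (1 + Real.log R) * q := by
    rw [he, hd]
    field_simp
  have h2 : 1 + Real.log R ≤ R := by
    have := Real.log_le_sub_one_of_pos hR0
    linarith
  have h3 : 1 + 2 * R * (1 + Real.log R) * q ≤ 5 * R ^ 2 := by
    have a1 : 2 * R * (1 + Real.log R) * q ≤ 2 * R * R * 2 := by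
      apply mul_le_mul _ hq2 hq (by positivity)
      exact mul_le_mul_of_nonneg_left h2 (by positivity)
    nlinarith
  have h0 : 0 ≤ 2 * R * (1 + Real.log R) * q := by positivity
  have h4 : Real.log (1 + 2 * R * (1 + Real.log R) * q) ≤ 2 * (1 + Real.log R) := by
    have b1 : Real.log (1 + 2 * R * (1 + Real.log R) * q) ≤ Real.log (5 * R ^ 2) :=
      Real.log_le_log (by positivity) h3
    have b2 : Real.log (5 * R ^ 2) = Real.log 5 + 2 * Real.log R := by
      rw [Real.log_mul (by norm_num) (by positivity), Real.log_pow]
      norm_num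
    have b3 : Real.log 5 ≤ 2 := by
      rw [Real.log_le_iff_le_exp (by norm_num)]
      have h9 : Real.exp 2 = Real.exp 1 * Real.exp 1 := by
        rw [← Real.exp_add]; norm_num
      have h27 := Real.exp_one_gt_d9
      rw [h9]
      nlinarith
    linarith
  have h5 : 0 ≤ Real.log (1 + 2 * R * (1 + Real.log R) * q) := Real.log_nonneg (by linarith)
  unfold BB
  rw [h1]
  calc (8 + 6 * e) / e * Real.log (1 + 2 * R * (1 + Real.log R) * q)
      ≤ 14 / e * (2 * (1 + Real.log R)) := by
        apply mul_le_mul _ h4 h5 (by positivity)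
        apply div_le_div_of_nonneg_right _ he0.le
        linarith
    _ = 560000 * L := by
        rw [he]
        unfold cc
        field_simp
        ring

theorem par_log8k {k : ℕ} (hk : 2 ≤ k) : Real.log (8 * k) ≤ 3 * LL k := by
  have hk' : (2 : ℝ) ≤ k := by exact_mod_cast hk
  unfold LL
  have h1 : Real.log (((k : ℝ) + 1) ^ 3) = 3 * Real.log (k + 1) := by
    rw [Real.log_pow]; norm_num
  rw [← h1]
  apply Real.log_le_log (by positivity)
  nlinarith [mul_nonneg (sub_nonneg.2 hk') (sub_nonneg.2 hk'),
    mul_nonneg (sub_nonneg.2 hk') (mul_nonneg (sub_nonneg.2 hk') (sub_nonneg.2 hk'))]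

theorem PAR_proof (hTree : TreeStmt) (hOne : OneStmt) : ParStmt := by
  intro V _ T k p a hk hG ha
  obtain ⟨hind, hps, hal, -, -, -, -, hcand, hmono, -⟩ := hTree V T
  have hL1 : 1 ≤ LL k := hOne.1 k hk
  have hL : 0 < LL k := by linarith
  have hc : (0 : ℝ) < cc := by unfold cc; norm_num
  have hk' : (2 : ℝ) ≤ k := by exact_mod_cast hk
  have hM0 : ∀ v, 0 ≤ MM p v := fun v => Finset.sum_nonneg fun i _ => sq_nonneg _
  have hMS : T.SupA (MM p) := hG.sq
  have hMr : MM p T.root = k := by
    unfold MM
    simp [hG.root]
  have hMp : ∀ v, MM p v ≤ MM p (T.par v) := fun v => (hmono _ hM0 hMS v).1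
  have ha0 : ∀ v, 0 ≤ a v := fun v => (hM0 v).trans (ha v).1
  have hch : ∀ u v, v ∈ T.ch u ↔ v ≠ T.root ∧ T.par v = u := by
    intro u v; simp [Tr.ch]
  have hroot : al T a T.root := by
    intro n
    rw [Function.iterate_fixed T.par_root]
    have := (ha T.root).1
    rw [hMr] at this
    linarith
  have hal1 : ∀ v, al T a v → 1 ≤ a v ∧ 1 ≤ a (T.par v) := by
    intro v hv
    have h1 := (hal a v).1 hv
    exact ⟨h1.1, ((hal a _).1 h1.2).1⟩
  have hMpos : ∀ v, al T a v → 1 / 8 ≤ MM p v := by
    intro v hv
    have h1 := (hal1 v hv).1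
    have h2 := (ha v).2
    linarith
  have hdd0 : ∀ v, 0 ≤ dd T k a v := by
    intro v
    unfold dd
    have := ha0 v
    have := ha0 (T.par v)
    positivity
  have hDD0 : ∀ u, 0 ≤ DD T k a u := by
    intro u
    unfold DD
    refine Finset.sum_nonneg fun v _ => ?_
    split_ifs
    · exact hdd0 v
    · exact le_rfl
  -- the ratio of a light child
  have hR : ∀ v, al T a v → 1 ≤ 8 * a (T.par v) / a v := by
    intro v hv
    have h1 := hal1 v hv
    rw [le_div_iff₀ (by linarith)]
    have := (ha v).2
    have := hMp v
    have := (ha (T.par v)).1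
    linarith
  have hee_lt : ∀ v, lt T a v →
      ee T k a v = cc * (1 + Real.log (8 * a (T.par v) / a v)) / LL k := by
    intro v hv
    unfold ee
    rw [if_pos hv]
  have hee_hv : ∀ v, hv T a v → ee T k a v = DD T k a (T.par v) := by
    intro v hv
    unfold ee
    rw [if_neg (fun h => h.2.2 hv), if_pos hv]
  have hee_dead : ∀ v, ¬ al T a v → ee T k a v = 0 := by
    intro v hv
    unfold ee
    rw [if_neg (fun h => hv h.2.1), if_neg (fun h => hv h.1.2.1)]
  have hee_root : ee T k a T.root = 0 := by
    unfold ee
    rw [if_neg (fun h => h.1 rfl), if_neg (fun h => ((hch _ _).1 h.1.1).1 rfl)]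
  have hlow : ∀ v, lt T a v → cc / LL k ≤ ee T k a v := by
    intro v hv
    rw [hee_lt v hv]
    apply div_le_div_of_nonneg_right _ hL.le
    have := Real.log_nonneg (hR v hv.2.1)
    nlinarith
  have hee0 : ∀ v, 0 ≤ ee T k a v := by
    intro v
    by_cases h1 : lt T a v
    · exact le_trans (by positivity) (hlow v h1)
    · unfold ee
      rw [if_neg h1]
      split_ifs
      · exact hDD0 _
      · exact le_rfl
  -- bound of the additive widths
  have hDDle : ∀ (u : V) (S : Finset V), 1 ≤ a u → (∀ y ∈ T.ch u, lt T a y → y ∈ S) →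
      DD T k a u ≤ cc / 2 / (a u * LL k) * ∑ y ∈ S, MM p y := by
    intro u S hu hS
    unfold DD
    rw [← Finset.sum_filter, Finset.mul_sum]
    have h1 : ∑ y ∈ (T.ch u).filter (fun y => lt T a y), dd T k a y ≤
        ∑ y ∈ (T.ch u).filter (fun y => lt T a y), cc / 2 / (a u * LL k) * MM p y := by
      refine Finset.sum_le_sum fun y hy => ?_
      have hy' := (hch _ _).1 (Finset.mem_filter.1 hy).1
      unfold dd
      rw [hy'.2]
      have h2 : cc / 2 / (a u * LL k) * MM p y = cc / 16 * (8 * MM p y) / (a u * LL k) := by
        ring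
      rw [h2]
      apply div_le_div_of_nonneg_right _ (by positivity)
      exact mul_le_mul_of_nonneg_left (ha y).2 (by positivity)
    refine h1.trans (Finset.sum_le_sum_of_subset_of_nonneg ?_ ?_)
    · intro y hy
      exact hS y (Finset.mem_filter.1 hy).1 (Finset.mem_filter.1 hy).2
    · intro y _ _
      have := hM0 y
      positivity
  -- one step
  have hstep : ∀ v, v ≠ T.root → al T a v →
      ee T k a v ≤ 667 * cc / LL k * Real.log (MM p (T.par v) / MM p v) := by
    intro v hvr hva
    have hMv : 0 < MM p v := by have := hMpos v hva; linarith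
    have hMu : 0 < MM p (T.par v) := lt_of_lt_of_le hMv (hMp v)
    have hlog := par_log_ge hMu hMv
    have hvc : v ∈ T.ch (T.par v) := (hch _ _).2 ⟨hvr, rfl⟩
    have h1 := hal1 v hva
    have hle1 : MM p v / MM p (T.par v) ≤ 1 := (div_le_one hMu).2 (hMp v)
    by_cases hh : hv T a v
    · rw [hee_hv v hh]
      have h2 := hDDle (T.par v) ((T.ch (T.par v)).erase v) h1.2 (fun y hy hl => by
        refine Finset.mem_erase.2 ⟨?_, hy⟩
        rintro rfl
        exact hl.2.2 hh)
      have h3 : ∑ y ∈ (T.ch (T.par v)).erase v, MM p y ≤ MM p (T.par v) - MM p v := by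
        have h4 := Finset.add_sum_erase (T.ch (T.par v)) (MM p) hvc
        have h5 := hMS (T.par v)
        linarith
      have h6 : ∑ y ∈ (T.ch (T.par v)).erase v, MM p y ≤
          a (T.par v) * Real.log (MM p (T.par v) / MM p v) := by
        have h7 : MM p (T.par v) - MM p v = MM p (T.par v) * (1 - MM p v / MM p (T.par v)) := by
          field_simp
        have h8 : MM p (T.par v) * (1 - MM p v / MM p (T.par v)) ≤
            a (T.par v) * Real.log (MM p (T.par v) / MM p v) :=
          mul_le_mul (ha _).1 hlog (by linarith) (ha0 _)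
        linarith
      have hl0 : 0 ≤ Real.log (MM p (T.par v) / MM p v) := by linarith
      have hau : 0 < a (T.par v) := by linarith
      calc DD T k a (T.par v)
          ≤ cc / 2 / (a (T.par v) * LL k) * (a (T.par v) * Real.log (MM p (T.par v) / MM p v)) :=
            h2.trans (mul_le_mul_of_nonneg_left h6 (by positivity))
        _ = (1 / 2) * cc / LL k * Real.log (MM p (T.par v) / MM p v) := by
            field_simp
        _ ≤ 667 * cc / LL k * Real.log (MM p (T.par v) / MM p v) := by
            apply mul_le_mul_of_nonneg_right _ hl0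
            apply div_le_div_of_nonneg_right _ hL.le
            nlinarith
    · have hl : lt T a v := ⟨hvr, hva, hh⟩
      rw [hee_lt v hl]
      have h2 : MM p v ≤ 127 / 128 * MM p (T.par v) := by
        by_cases h3 : a (T.par v) ≤ 16 * a v
        · obtain ⟨h, hhc, hhv⟩ := hcand a (T.par v) v ⟨hvc, hva, h3⟩
          have hne : v ≠ h := by rintro rfl; exact hh hhv
          have hp := ((hch _ _).1 hhc).2
          have h4 : a (T.par v) ≤ 16 * a h := by
            have := hhv.1.2.2
            rwa [hp] at this
          have h5 : MM p v + MM p h ≤ ∑ y ∈ T.ch (T.par v), MM p y := by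
            rw [← Finset.sum_pair hne]
            apply Finset.sum_le_sum_of_subset_of_nonneg
            · intro y hy
              rcases Finset.mem_insert.1 hy with rfl | hy
              · exact hvc
              · rw [Finset.mem_singleton.1 hy]; exact hhc
            · intro y _ _; exact hM0 y
          have h6 := hMS (T.par v)
          have h7 := (ha h).2
          have h8 := (ha (T.par v)).1
          linarith
        · push Not at h3
          have h7 := (ha v).1
          have h8 := (ha (T.par v)).2
          linarith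
      have h3 : 1 / 128 ≤ Real.log (MM p (T.par v) / MM p v) := by
        have : MM p v / MM p (T.par v) ≤ 127 / 128 := by
          rw [div_le_iff₀ hMu]; exact h2
        linarith
      have h4 : Real.log (8 * a (T.par v) / a v) ≤
          Real.log 64 + Real.log (MM p (T.par v) / MM p v) := by
        rw [← Real.log_mul (by norm_num) (by positivity)]
        apply Real.log_le_log (by have := hR v hva; linarith)
        rw [← mul_div_assoc]
        apply div_le_div₀ (by positivity) _ hMv (ha v).1
        have := (ha (T.par v)).2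
        linarith
      have h5 : Real.log 64 ≤ 4.2 := by
        have h6 : Real.log 64 = 6 * Real.log 2 := by
          rw [show (64 : ℝ) = 2 ^ 6 by norm_num, Real.log_pow]; norm_num
        have := Real.log_two_lt_d9
        rw [h6]
        linarith
      have h7 : 1 + Real.log (8 * a (T.par v) / a v) ≤ 667 * Real.log (MM p (T.par v) / MM p v) := by
        linarith
      calc cc * (1 + Real.log (8 * a (T.par v) / a v)) / LL k
          ≤ cc * (667 * Real.log (MM p (T.par v) / MM p v)) / LL k := by
            apply div_le_div_of_nonneg_right _ hL.le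
            exact mul_le_mul_of_nonneg_left h7 hc.le
        _ = 667 * cc / LL k * Real.log (MM p (T.par v) / MM p v) := by ring
  have hps0 : ∀ v, 0 ≤ ps T (ee T k a) v := fun v => Finset.sum_nonneg fun n _ => hee0 _
  have halive : ∀ v, al T a v → ps T (ee T k a) v ≤ 667 * cc / LL k * Real.log (k / MM p v) := by
    apply hind
    · intro _
      rw [(hps _).1, hMr, div_self (by positivity), Real.log_one, mul_zero]
    · intro v hvr ih hva
      have hua : al T a (T.par v) := ((hal a v).1 hva).2
      have hMv : 0 < MM p v := by have := hMpos v hva; linarith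
      have hMu : 0 < MM p (T.par v) := lt_of_lt_of_le hMv (hMp v)
      rw [(hps _).2 v hvr]
      have h1 := hstep v hvr hva
      have h2 := ih hua
      have h3 : Real.log (k / MM p v) =
          Real.log (MM p (T.par v) / MM p v) + Real.log (k / MM p (T.par v)) := by
        rw [← Real.log_mul (by positivity) (by positivity)]
        congr 1
        field_simp
      rw [h3, mul_add]
      linarith
  have hall : ∀ v, ps T (ee T k a) v ≤ 1 / 9 := by
    have hA : ∀ v, al T a v → ps T (ee T k a) v ≤ 1 / 9 := by
      intro v hva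
      refine (halive v hva).trans ?_
      have hMv := hMpos v hva
      have h1 : Real.log (k / MM p v) ≤ 3 * LL k := by
        refine le_trans (Real.log_le_log (by positivity) ?_) (par_log8k hk)
        rw [div_le_iff₀ (by linarith)]
        nlinarith
      calc 667 * cc / LL k * Real.log (k / MM p v) ≤ 667 * cc / LL k * (3 * LL k) :=
            mul_le_mul_of_nonneg_left h1 (by positivity)
        _ = 2001 * cc := by field_simp; ring
        _ ≤ 1 / 9 := by unfold cc; norm_num
    apply hind
    · exact hA _ hroot
    · intro v hvr ih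
      by_cases hva : al T a v
      · exact hA v hva
      · rw [(hps _).2 v hvr, hee_dead v hva, zero_add]
        exact ih
  have hee1 : ∀ v, ee T k a v ≤ 1 := by
    intro v
    by_cases hvr : v = T.root
    · rw [hvr, hee_root]; norm_num
    · have h1 := hall v
      rw [(hps _).2 v hvr] at h1
      have := hps0 (T.par v)
      linarith
  refine ⟨ha0, hroot, fun v => ⟨hee0 v, hee1 v⟩, fun v => ⟨?_, ?_⟩, fun v hv => ⟨hlow v hv, ?_, ?_, ?_⟩⟩
  · unfold ss
    have := hps0 v
    positivity
  · unfold ss
    have := hall v
    linarith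
  · have h1 := hal1 v hv.2.1
    have h2 : 0 < a v := by linarith
    have h3 : 0 < a (T.par v) := by linarith
    unfold dd
    positivity
  · have h1 := hal1 v hv.2.1
    have h3 : 0 < a (T.par v) := by linarith
    have h2 := hDDle (T.par v) (T.ch (T.par v)) h1.2 (fun y hy _ => hy)
    have h4 : ∑ y ∈ T.ch (T.par v), MM p y ≤ a (T.par v) := (hMS _).trans (ha _).1
    have h5 := hlow v hv
    calc DD T k a (T.par v) ≤ cc / 2 / (a (T.par v) * LL k) * a (T.par v) :=
          h2.trans (mul_le_mul_of_nonneg_left h4 (by positivity))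
      _ = cc / LL k / 2 := by field_simp
      _ ≤ ee T k a v / 2 := by linarith
  · intro q hq hq2
    have h1 := hal1 v hv.2.1
    have h2 : 0 < a v := by linarith
    have h3 : 0 < a (T.par v) := by linarith
    refine par_BB hL (hR v hv.2.1) _ _ (hee_lt v hv) ?_ (hee1 v) hq hq2
    unfold dd
    field_simp
    ring

end Crest.Agent.KS.H
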