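import Crest.Agent.R314H.Defs

/-! Row 314, part H: one step of the algorithm is paid by the potential (STEP). -/

set_option autoImplicit false

namespace Crest.Agent.KS.H

open Finset
open scoped Classical

theorem STEP_proof (hTree : TreeStmt) (hOne : OneStmt) (hInv : InvStmt) (hEp1 : Ep1Stmt)
    (hEps : EpsStmt) (hNode : NodeStmt) : StepStmt := by
  intro V _ T k τ wt p p' s hk hτ hW hI hG
  obtain ⟨-, -, -, hzz, hsum, hall, -, -, -, hgeo⟩ := hTree V T
  obtain ⟨hL, hth, hcls, -, -, -, hM⟩ := hOne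
  have hL1 := hL k hk
  have hr01 : ∀ v i, 0 ≤ s.r v i ∧ s.r v i ≤ 1 := fun v i =>
    ⟨le_trans (hI.good.p01 v i).1 (hI.rb v i).1, (hI.rb v i).2.2⟩
  have hI' : Inv T p' (upd T p' s) := hInv V T k p' s hk hG hr01 hI.qok.nonneg
  have hN := hNode V T k p p' s hk hI hG
  set s' := upd T p' s with hs'
  have hr' : ∀ v i, s'.r v i = clp (s.r v i) (p' v i) := fun v i => rfl
  have ha' : ∀ v, s'.a v = cls (s.a v) (MM s'.r v) := fun v => rfl
  set L := LL k with hLdef
  set dz : V → ℝ := fun v => |zz T s' v - zz T s v| with hdz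
  set δ : V → ℝ := fun v => |MM s'.r v - MM s.r v| with hδ
  set e : V → ℝ := fun v => ev s.a s'.a v * (s.a v + s'.a v) with he
  have hτ0 : (0 : ℝ) < τ := by linarith
  have hmem : ∀ u v, v ∈ T.ch u → wt v = wt u / τ := by
    intro u v hv
    have h : v ≠ T.root ∧ T.par v = u := by simpa [Tr.ch] using hv
    rw [← h.2, ← hW.2 v h.1]; field_simp
  have hconv : ∀ f : V → ℝ, ∑ u, wt u / τ * ∑ v ∈ T.ch u, f v = ∑ v ∈ T.nr, wt v * f v := by
    intro f
    rw [hsum]
    refine Finset.sum_congr rfl fun u _ => ?_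
    rw [Finset.mul_sum]
    exact Finset.sum_congr rfl fun v hv => by rw [hmem u v hv]
  have hmv : T.mv wt (zz T s) (zz T s') = ∑ v ∈ T.nr, wt v * dz v := rfl
  have hmv0 : 0 ≤ ∑ v ∈ T.nr, wt v * dz v :=
    Finset.sum_nonneg fun v _ => mul_nonneg (hW.1 v).le (abs_nonneg _)
  have hroot : dz T.root = 0 := by
    simp only [hdz]; rw [(hzz k s').1, (hzz k s).1]; simp
  -- the sum of NODE
  have h1 : ∑ v ∈ T.nr, wt v * dz v +
      (∑ u, wt u / τ * psi T p' s'.r s'.a s'.q u - ∑ u, wt u / τ * psi T p' s.r s.a s.q u) ≤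
      3 / τ * ∑ v ∈ T.nr, wt v * dz v + 40000000 * L *
        ∑ v ∈ T.nr, wt v * (δ v + sig T k s.a s'.a v * MM p' v) := by
    have h := Finset.sum_le_sum (s := univ) fun u _ =>
      mul_le_mul_of_nonneg_left (hN u) (div_pos (hW.1 u) hτ0).le
    have e1 : ∑ u, wt u / τ * (∑ v ∈ T.ch u, |zz T s' v - zz T s v| +
        (psi T p' s'.r s'.a s'.q u - psi T p' s.r s.a s.q u)) = ∑ v ∈ T.nr, wt v * dz v +
        (∑ u, wt u / τ * psi T p' s'.r s'.a s'.q u - ∑ u, wt u / τ * psi T p' s.r s.a s.q u) := by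
      rw [← hconv dz, ← Finset.sum_sub_distrib, ← Finset.sum_add_distrib]
      exact Finset.sum_congr rfl fun u _ => by simp only [hdz]; ring
    have e2 : ∑ u, wt u / τ * (3 * |zz T s' u - zz T s u| + 40000000 * L *
        ∑ v ∈ T.ch u, (|MM s'.r v - MM s.r v| + sig T k s.a s'.a v * MM p' v)) =
        3 / τ * ∑ u, wt u * dz u + 40000000 * L *
        ∑ v ∈ T.nr, wt v * (δ v + sig T k s.a s'.a v * MM p' v) := by
      rw [← hconv, Finset.mul_sum, Finset.mul_sum, ← Finset.sum_add_distrib]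
      exact Finset.sum_congr rfl fun u _ => by simp only [hdz, hδ]; ring
    rw [e1, e2, hall (fun u => wt u * dz u), hroot, mul_zero, zero_add] at h
    exact h
  have h3 : 3 / τ * ∑ v ∈ T.nr, wt v * dz v ≤ (∑ v ∈ T.nr, wt v * dz v) / 2 := by
    have : 3 / τ ≤ 1 / 2 := by rw [div_le_div_iff₀ hτ0 (by norm_num)]; linarith
    have := mul_le_mul_of_nonneg_right this hmv0
    linarith
  -- the events
  have hY0 : ∀ v, 0 ≤ MM p' v := fun v => Finset.sum_nonneg fun i _ => sq_nonneg _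
  have hYa : ∀ v, MM p' v ≤ s'.a v := fun v =>
    le_trans ((hM V k p' s'.r v (hG.p01 v)).2 (hI'.rb v)).1 (hI'.ab v).1
  have hYs : T.SupA (MM p') := hG.sq
  have h4 : ∑ v ∈ T.nr, wt v * (sig T k s.a s'.a v * MM p' v) ≤ 38 * ∑ v, wt v * e v := by
    have a1 := (hgeo τ wt (MM p') hτ hW hY0 hYs).2 (eps T k s.a s'.a)
      (fun v => ((hEp1 V T k s.a s'.a hk hI.par hI'.par).1 v).1)
    have a2 := hEps V T k τ wt s.a s'.a (MM p') hk hτ hW hI.par.nonneg
      (fun v => ⟨hY0 v, hYa v⟩) hYs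
    have a3 : ∑ v ∈ T.nr, wt v * (sig T k s.a s'.a v * MM p' v) =
        ∑ v ∈ T.nr, wt v * (ps T (eps T k s.a s'.a) v * MM p' v) := rfl
    rw [a3]
    simp only [he]
    linarith
  have hδ0 : ∀ v, 0 ≤ wt v * δ v := fun v => mul_nonneg (hW.1 v).le (abs_nonneg _)
  have h5 : ∑ v ∈ T.nr, wt v * δ v ≤ ∑ v, wt v * δ v := by
    rw [hall (fun v => wt v * δ v)]
    have := hδ0 T.root
    linarith
  have he0 : ∀ v, 0 ≤ e v := by
    intro v
    simp only [he]
    refine mul_nonneg ?_ (add_nonneg (hI.par.nonneg v) (hI'.par.nonneg v))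
    unfold ev; split_ifs <;> norm_num
  -- the local potentials
  have h6 : ∀ v, ∑ i, th (s'.r v i) (p' v i) + δ v ≤ ∑ i, th (s.r v i) (p' v i) := by
    intro v
    have b1 : δ v ≤ ∑ i, |clp (s.r v i) (p' v i) ^ 2 - s.r v i ^ 2| := by
      simp only [hδ, MM]
      rw [← Finset.sum_sub_distrib]
      exact Finset.abs_sum_le_sum_abs _ _
    have b2 := Finset.sum_le_sum (s := univ) fun i _ =>
      (hth (s.r v i) (p' v i) (hr01 v i).1 (hr01 v i).2 (hG.p01 v i).1 (hG.p01 v i).2).2.2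
    rw [Finset.sum_add_distrib] at b2
    simp only [hr']
    linarith
  have h7 : ∀ v, |2 / 3 * s'.a v - MM s'.r v| + e v / 11 ≤ |2 / 3 * s.a v - MM s.r v| + δ v := by
    intro v
    have b0 : 0 ≤ MM s'.r v := Finset.sum_nonneg fun i _ => sq_nonneg _
    have b1 := (hcls (s.a v) (MM s'.r v) b0).2 (hI.par.nonneg v)
    rw [← ha' v] at b1
    have b2 : |2 / 3 * s.a v - MM s'.r v| ≤ |2 / 3 * s.a v - MM s.r v| + δ v := by
      simp only [hδ]
      have := abs_sub_le (2 / 3 * s.a v) (MM s.r v) (MM s'.r v)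
      rw [abs_sub_comm (MM s.r v) (MM s'.r v)] at this
      exact this
    have b3 : e v = (if s.a v = s'.a v then 0 else 1) * (s.a v + s'.a v) := rfl
    rw [b3]
    linarith
  have h8 : ∑ v, wt v * (3 * 10 ^ 10 * L * ∑ i, th (s'.r v i) (p' v i) +
      2 * 10 ^ 10 * L * |2 / 3 * s'.a v - MM s'.r v|) +
      (40000000 * L * ∑ v, wt v * δ v + 40000000 * L * (38 * ∑ v, wt v * e v)) ≤
      ∑ v, wt v * (3 * 10 ^ 10 * L * ∑ i, th (s.r v i) (p' v i) +
      2 * 10 ^ 10 * L * |2 / 3 * s.a v - MM s.r v|) := by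
    rw [Finset.mul_sum, Finset.mul_sum, Finset.mul_sum, ← Finset.sum_add_distrib,
      ← Finset.sum_add_distrib]
    refine Finset.sum_le_sum fun v _ => ?_
    have c1 := h6 v
    have c2 := h7 v
    have c3 := he0 v
    have c4 : 0 ≤ δ v := abs_nonneg _
    have c5 : 0 ≤ wt v * L := mul_nonneg (hW.1 v).le (by linarith)
    have c6 : 3 * 10 ^ 10 * ∑ i, th (s'.r v i) (p' v i) + 2 * 10 ^ 10 * |2 / 3 * s'.a v - MM s'.r v| +
        (40000000 * δ v + 40000000 * 38 * e v) ≤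
        3 * 10 ^ 10 * ∑ i, th (s.r v i) (p' v i) + 2 * 10 ^ 10 * |2 / 3 * s.a v - MM s.r v| := by
      linarith
    have c7 := mul_le_mul_of_nonneg_left c6 c5
    linarith
  have h9 : ∑ v ∈ T.nr, wt v * (δ v + sig T k s.a s'.a v * MM p' v) ≤
      ∑ v, wt v * δ v + 38 * ∑ v, wt v * e v := by
    have : ∑ v ∈ T.nr, wt v * (δ v + sig T k s.a s'.a v * MM p' v) =
        ∑ v ∈ T.nr, wt v * δ v + ∑ v ∈ T.nr, wt v * (sig T k s.a s'.a v * MM p' v) := by
      rw [← Finset.sum_add_distrib]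
      exact Finset.sum_congr rfl fun v _ => by ring
    linarith
  have h10 := mul_le_mul_of_nonneg_left h9 (show (0 : ℝ) ≤ 40000000 * L by linarith)
  rw [hmv]
  unfold Phi
  rw [← hLdef]
  linarith

end Crest.Agent.KS.H
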