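import Crest.Agent.R314H.Defs

set_option autoImplicit false

namespace Crest.Agent.KS.H

open Finset
open scoped Classical

namespace TAN

variable {V : Type} [Fintype V] {k : ℕ}

lemma psi_sum (hTree : TreeStmt) (T : Tr V) (τ : ℝ) (wt : V → ℝ) (hτ : 16 ≤ τ) (hwt : T.Wt τ wt)
    (p r : V → Fin k → ℝ) (a q : V → ℝ) :
    ∑ u, wt u / τ * psi T p r a q u =
      ∑ v, wt v * (if v = T.root then 0 else kap T k a q v * gt T p r a v) := by
  symm
  rw [(hTree V T).2.2.2.2.2.1, (hTree V T).2.2.2.2.1]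
  simp only [if_true, mul_zero, zero_add]
  symm
  refine Finset.sum_congr rfl fun u _ => ?_
  unfold psi
  rw [Finset.mul_sum]
  refine Finset.sum_congr rfl fun v hv => ?_
  have hv' : v ≠ T.root ∧ T.par v = u := by simpa [Tr.ch] using hv
  have h1 := hwt.2 v hv'.1
  rw [hv'.2] at h1
  have h2 : wt u / τ = wt v := by rw [← h1]; field_simp
  rw [h2, if_neg hv'.1]

lemma Phi_eq (hTree : TreeStmt) (T : Tr V) (τ : ℝ) (wt : V → ℝ) (hτ : 16 ≤ τ) (hwt : T.Wt τ wt)
    (p : V → Fin k → ℝ) (s : St V k) :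
    Phi T τ wt p s = ∑ v, wt v * (3 * 10 ^ 10 * LL k * ∑ i, th (s.r v i) (p v i) +
      2 * 10 ^ 10 * LL k * |2 / 3 * s.a v - MM s.r v| +
      (if v = T.root then 0 else kap T k s.a s.q v * gt T p s.r s.a v)) := by
  unfold Phi
  rw [psi_sum hTree T τ wt hτ hwt, ← Finset.sum_add_distrib]
  refine Finset.sum_congr rfl fun v _ => ?_
  ring

lemma tangent (p p' : V → Fin k → ℝ) (v : V) (s : ℝ) (h0 : 0 ≤ s) (h1 : s ≤ 1)
    (hp : ∀ i, 0 ≤ p v i) (hp' : ∀ i, 0 ≤ p' v i) :
    ZZ p s v - ZZ p' s v ≤ ∑ i, -(2 * (1 - s) * p v i + 3 * s * p v i ^ 2) * (p' v i - p v i) := by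
  unfold ZZ
  rw [← Finset.sum_sub_distrib]
  refine Finset.sum_le_sum fun i _ => ?_
  have a1 : 0 ≤ (1 - s) * (p' v i - p v i) ^ 2 := mul_nonneg (by linarith) (sq_nonneg _)
  have a2 : 0 ≤ s * ((p' v i - p v i) ^ 2 * (p' v i + 2 * p v i)) :=
    mul_nonneg h0 (mul_nonneg (sq_nonneg _) (by linarith [hp i, hp' i]))
  nlinarith

end TAN

open TAN in
theorem TAN_proof (hTree : TreeStmt) (hOne : OneStmt) (hKap : KapStmt) : TanStmt := by
  intro V _ T k τ wt p s hk hτ hwt hI
  have hL : 1 ≤ LL k := hOne.1 k hk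
  have hκ := (hKap V T k s.a s.q).1 hk hI.par hI.qok
  have hp := hI.good.p01
  have hr0 : ∀ v i, 0 ≤ s.r v i := fun v i => (hp v i).1.trans (hI.rb v i).1
  have hgt : ∀ v, 0 ≤ gt T p s.r s.a v ∧ gt T p s.r s.a v ≤ 2 * ∑ i, p v i := by
    intro v
    obtain ⟨-, h2⟩ := hOne.2.2.2.2.2.2 V k p s.r v (hp v)
    obtain ⟨-, -, h3, h4⟩ := h2 (hI.rb v)
    obtain ⟨h5, h6, -⟩ := h4 _ (hI.par.s01 (T.par v)).1 (hI.par.s01 (T.par v)).2
    have h7 : 0 ≤ ∑ i, p v i := Finset.sum_nonneg fun i _ => (hp v i).1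
    unfold gt
    split_ifs
    · exact ⟨h6, by linarith⟩
    · exact ⟨le_rfl, by linarith⟩
  refine ⟨⟨fun v i => 3 * 10 ^ 10 * LL k * (5 - 8 * s.r v i) +
      (if v ≠ T.root ∧ al T s.a v then kap T k s.a s.q v *
        -(2 * (1 - ss T k s.a (T.par v)) * p v i + 3 * ss T k s.a (T.par v) * p v i ^ 2) else 0),
      ?_, ?_⟩, ?_, ?_⟩
  · intro v i
    have h1 : |3 * 10 ^ 10 * LL k * (5 - 8 * s.r v i)| ≤ 3 * 10 ^ 10 * LL k * 5 := by
      rw [abs_mul, abs_of_nonneg (by positivity)]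
      have : |5 - 8 * s.r v i| ≤ 5 := by
        rw [abs_le]; constructor <;> linarith [hr0 v i, (hI.rb v i).2.2]
      gcongr
    have h2 : |(if v ≠ T.root ∧ al T s.a v then kap T k s.a s.q v *
        -(2 * (1 - ss T k s.a (T.par v)) * p v i + 3 * ss T k s.a (T.par v) * p v i ^ 2) else 0)| ≤
        1760000 * LL k * 3 := by
      split_ifs
      · obtain ⟨s0, s1⟩ := hI.par.s01 (T.par v)
        obtain ⟨p0, p1⟩ := hp v i
        have b0 : 0 ≤ 2 * (1 - ss T k s.a (T.par v)) * p v i + 3 * ss T k s.a (T.par v) * p v i ^ 2 := by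
          have : 0 ≤ 1 - ss T k s.a (T.par v) := by linarith
          positivity
        have b1 : 2 * (1 - ss T k s.a (T.par v)) * p v i + 3 * ss T k s.a (T.par v) * p v i ^ 2 ≤ 3 := by
          have c1 : (1 - ss T k s.a (T.par v)) * p v i ≤ (1 - ss T k s.a (T.par v)) * 1 :=
            mul_le_mul_of_nonneg_left p1 (by linarith)
          have c2 : ss T k s.a (T.par v) * p v i ^ 2 ≤ ss T k s.a (T.par v) * 1 :=
            mul_le_mul_of_nonneg_left (by nlinarith) s0
          nlinarith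
        rw [abs_mul, abs_neg, abs_of_nonneg (hκ v).1, abs_of_nonneg b0]
        exact mul_le_mul (hκ v).2 b1 b0 (by positivity)
      · rw [abs_zero]; positivity
    refine (abs_add_le _ _).trans ?_
    nlinarith
  · intro p' hp'
    rw [Phi_eq hTree T τ wt hτ hwt, Phi_eq hTree T τ wt hτ hwt, ← Finset.sum_sub_distrib]
    refine Finset.sum_le_sum fun v _ => ?_
    rw [← mul_sub]
    refine mul_le_mul_of_nonneg_left ?_ (hwt.1 v).le
    simp only [add_mul, Finset.sum_add_distrib]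
    have e1 : ∑ i, 3 * 10 ^ 10 * LL k * (5 - 8 * s.r v i) * (p' v i - p v i) =
        3 * 10 ^ 10 * LL k * ∑ i, th (s.r v i) (p' v i) -
          3 * 10 ^ 10 * LL k * ∑ i, th (s.r v i) (p v i) := by
      rw [← mul_sub, ← Finset.sum_sub_distrib, Finset.mul_sum]
      refine Finset.sum_congr rfl fun i _ => ?_
      unfold th; ring
    have e2 : (if v = T.root then 0 else kap T k s.a s.q v * gt T p' s.r s.a v) -
        (if v = T.root then 0 else kap T k s.a s.q v * gt T p s.r s.a v) ≤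
        ∑ i, (if v ≠ T.root ∧ al T s.a v then kap T k s.a s.q v *
          -(2 * (1 - ss T k s.a (T.par v)) * p v i + 3 * ss T k s.a (T.par v) * p v i ^ 2) else 0) *
          (p' v i - p v i) := by
      by_cases h1 : v = T.root
      · simp [h1]
      · by_cases h2 : al T s.a v
        · simp only [h1, h2, if_false, ne_eq, not_false_eq_true, and_self, if_true, gt]
          have := tangent p p' v _ (hI.par.s01 (T.par v)).1 (hI.par.s01 (T.par v)).2
            (fun i => (hp v i).1) (fun i => (hp'.p01 v i).1)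
          have h3 := mul_le_mul_of_nonneg_left this (hκ v).1
          rw [Finset.mul_sum] at h3
          simp only [← mul_assoc] at h3
          linarith
        · simp [h1, h2, gt]
    rw [e1]
    linarith
  · rw [Phi_eq hTree T τ wt hτ hwt]
    refine Finset.sum_nonneg fun v _ => mul_nonneg (hwt.1 v).le ?_
    have h1 : 0 ≤ ∑ i, th (s.r v i) (p v i) := Finset.sum_nonneg fun i _ =>
      (hOne.2.1 _ _ (hr0 v i) (hI.rb v i).2.2 (hp v i).1 (hp v i).2).1
    have h2 : 0 ≤ (if v = T.root then 0 else kap T k s.a s.q v * gt T p s.r s.a v) := by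
      split_ifs
      · exact le_rfl
      · exact mul_nonneg (hκ v).1 (hgt v).1
    positivity
  · rw [Phi_eq hTree T τ wt hτ hwt]
    have hm0 : ∀ v, 0 ≤ ∑ i, p v i := fun v => Finset.sum_nonneg fun i _ => (hp v i).1
    have hgeo := ((hTree V T).2.2.2.2.2.2.2.2.2 τ wt (fun v => ∑ i, p v i) hτ hwt hm0 hI.good.lin).1
    have hroot : ∑ i, p T.root i = k := by simp [hI.good.root]
    simp only [hroot] at hgeo
    have hb : ∀ v, wt v * (3 * 10 ^ 10 * LL k * ∑ i, th (s.r v i) (p v i) +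
        2 * 10 ^ 10 * LL k * |2 / 3 * s.a v - MM s.r v| +
        (if v = T.root then 0 else kap T k s.a s.q v * gt T p s.r s.a v)) ≤
        5 * 10 ^ 11 * LL k * (wt v * ∑ i, p v i) := by
      intro v
      have h1 : ∑ i, th (s.r v i) (p v i) ≤ 11 * ∑ i, p v i := by
        rw [Finset.mul_sum]
        refine Finset.sum_le_sum fun i _ => ?_
        obtain ⟨b1, b2, b3⟩ := hI.rb v i
        have b0 := hr0 v i
        have b4 := (hp v i).1
        unfold th
        nlinarith [mul_nonneg b4 b0, mul_le_mul_of_nonneg_left b3 b0]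
      have h2 : |2 / 3 * s.a v - MM s.r v| ≤ ∑ i, p v i := by
        obtain ⟨-, h2⟩ := hOne.2.2.2.2.2.2 V k p s.r v (hp v)
        obtain ⟨-, -, h3, -⟩ := h2 (hI.rb v)
        obtain ⟨h4, h5⟩ := hI.ab v
        have := hm0 v
        rw [abs_le]; constructor <;> linarith
      have h3 : (if v = T.root then 0 else kap T k s.a s.q v * gt T p s.r s.a v) ≤
          1760000 * LL k * (2 * ∑ i, p v i) := by
        split_ifs
        · have := hm0 v
          positivity
        · exact mul_le_mul (hκ v).2 (hgt v).2 (hgt v).1 (by positivity)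
      have h4 : 3 * 10 ^ 10 * LL k * ∑ i, th (s.r v i) (p v i) ≤ 3 * 10 ^ 10 * LL k * (11 * ∑ i, p v i) := by
        gcongr
      have h5 : 2 * 10 ^ 10 * LL k * |2 / 3 * s.a v - MM s.r v| ≤ 2 * 10 ^ 10 * LL k * ∑ i, p v i := by
        gcongr
      have h6 : 0 ≤ LL k * ∑ i, p v i := mul_nonneg (by linarith) (hm0 v)
      have h7 : 3 * 10 ^ 10 * LL k * ∑ i, th (s.r v i) (p v i) +
        2 * 10 ^ 10 * LL k * |2 / 3 * s.a v - MM s.r v| +
        (if v = T.root then 0 else kap T k s.a s.q v * gt T p s.r s.a v) ≤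
          5 * 10 ^ 11 * LL k * ∑ i, p v i := by nlinarith
      calc _ ≤ wt v * (5 * 10 ^ 11 * LL k * ∑ i, p v i) := mul_le_mul_of_nonneg_left h7 (hwt.1 v).le
        _ = _ := by ring
    calc _ ≤ ∑ v, 5 * 10 ^ 11 * LL k * (wt v * ∑ i, p v i) := Finset.sum_le_sum fun v _ => hb v
      _ = 5 * 10 ^ 11 * LL k * ∑ v, wt v * ∑ i, p v i := by rw [Finset.mul_sum]
      _ ≤ 5 * 10 ^ 11 * LL k * (2 * (wt T.root * k)) := by gcongr
      _ = _ := by ring

end Crest.Agent.KS.H
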