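import Crest.Agent.R314H.Sup

/-! Row 314 (H): geometric sums over a tree. -/

set_option autoImplicit false

namespace Crest.Agent.R314H

open Finset Crest.Agent.KS
open scoped Classical

variable {V : Type} [Fintype V] (T : Tr V)

theorem mem_nr {v : V} : v ∈ T.nr ↔ v ≠ T.root := by
  unfold Tr.nr; simp

/-- a sum over the non-root nodes, grouped by the parent -/
theorem sum_nr (f : V → ℝ) : ∑ v ∈ T.nr, f v = ∑ u, ∑ v ∈ T.ch u, f v := by
  rw [← Finset.sum_fiberwise (s := T.nr) (g := T.par) (f := f)]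
  refine Finset.sum_congr rfl fun u _ => Finset.sum_congr ?_ fun _ _ => rfl
  ext v
  rw [mem_filter, mem_nr, mem_ch]

theorem sum_univ_eq (f : V → ℝ) : ∑ u, f u = f T.root + ∑ v ∈ T.nr, f v := by
  rw [← Finset.add_sum_erase univ f (mem_univ T.root)]
  congr 1
  refine Finset.sum_congr ?_ fun _ _ => rfl
  ext v
  rw [mem_nr]; simp

theorem wt_ch {τ : ℝ} {wt : V → ℝ} (hτ : 16 ≤ τ) (hw : T.Wt τ wt) {u v : V} (hv : v ∈ T.ch u) :
    wt v = wt u / τ := by
  rw [mem_ch] at hv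
  have h := hw.2 v hv.1
  rw [hv.2] at h
  rw [← h]; field_simp

theorem wt_div_le {τ : ℝ} {wt : V → ℝ} (hτ : 16 ≤ τ) (hw : T.Wt τ wt) (u : V) :
    wt u / τ ≤ wt u / 16 :=
  div_le_div_of_nonneg_left (hw.1 u).le (by norm_num) hτ

/-- a weighted sum of a function of the parent -/
theorem sum_nr_par {τ : ℝ} {wt : V → ℝ} (hτ : 16 ≤ τ) (hw : T.Wt τ wt) (y f : V → ℝ) :
    ∑ v ∈ T.nr, wt v * (y v * f (T.par v)) = ∑ u, wt u / τ * ((∑ v ∈ T.ch u, y v) * f u) := by
  rw [sum_nr]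
  refine Finset.sum_congr rfl fun u _ => ?_
  rw [Finset.sum_mul, Finset.mul_sum]
  refine Finset.sum_congr rfl fun v hv => ?_
  rw [wt_ch T hτ hw hv, ((mem_ch T).1 hv).2]

/-- level sums of a superadditive function decay geometrically -/
theorem level {τ : ℝ} {wt : V → ℝ} (hτ : 16 ≤ τ) (hw : T.Wt τ wt) (Y : V → ℝ) (h0 : ∀ v, 0 ≤ Y v)
    (hY : T.SupA Y) : ∑ v ∈ T.nr, wt v * Y v ≤ wt T.root * Y T.root / 15 := by
  have h1 := sum_nr_par T hτ hw Y (fun _ => 1)
  simp only [mul_one] at h1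
  have h2 : ∑ u, wt u / τ * ∑ v ∈ T.ch u, Y v ≤ ∑ u, wt u * Y u / 16 := by
    refine Finset.sum_le_sum fun u _ => ?_
    calc wt u / τ * ∑ v ∈ T.ch u, Y v ≤ wt u / 16 * Y u :=
          mul_le_mul (wt_div_le T hτ hw u) (hY u) (Finset.sum_nonneg fun v _ => h0 v)
            (div_nonneg (hw.1 u).le (by norm_num))
      _ = wt u * Y u / 16 := by ring
  rw [← Finset.sum_div, sum_univ_eq T (fun u => wt u * Y u)] at h2
  linarith

/-- the recursion for the movement of the masses -/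
theorem recQ {τ : ℝ} {wt : V → ℝ} (hτ : 16 ≤ τ) (hw : T.Wt τ wt) (x a b q : V → ℝ)
    (hr : x T.root = 0) (hx : ∀ v, 0 ≤ x v) (hb : ∀ v, 0 ≤ b v)
    (hq : ∀ u, ∑ v ∈ T.ch u, q v ≤ 3)
    (h : ∀ v, v ≠ T.root → x v ≤ a v + q v * (b (T.par v) + x (T.par v))) :
    ∑ v ∈ T.nr, wt v * x v ≤
      16 / 13 * (∑ v ∈ T.nr, wt v * a v + 3 * ∑ u, wt u / τ * b u) := by
  have hτ0 : 0 < τ := by linarith
  have h1 : ∑ v ∈ T.nr, wt v * x v ≤
      ∑ v ∈ T.nr, wt v * a v + ∑ v ∈ T.nr, wt v * (q v * (b (T.par v) + x (T.par v))) := by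
    rw [← Finset.sum_add_distrib]
    refine Finset.sum_le_sum fun v hv => ?_
    rw [← mul_add]
    exact mul_le_mul_of_nonneg_left (h v ((mem_nr T).1 hv)) (hw.1 v).le
  have h2 := sum_nr_par T hτ hw q (fun u => b u + x u)
  have h3 : ∑ u, wt u / τ * ((∑ v ∈ T.ch u, q v) * (b u + x u)) ≤
      ∑ u, (3 * (wt u / τ * b u) + 3 / 16 * (wt u * x u)) := by
    refine Finset.sum_le_sum fun u _ => ?_
    have e1 : (∑ v ∈ T.ch u, q v) * (b u + x u) ≤ 3 * (b u + x u) :=
      mul_le_mul_of_nonneg_right (hq u) (add_nonneg (hb u) (hx u))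
    have e2 : 0 ≤ wt u / τ := div_nonneg (hw.1 u).le hτ0.le
    have e3 := mul_le_mul_of_nonneg_left e1 e2
    have e4 := mul_le_mul_of_nonneg_right (wt_div_le T hτ hw u) (hx u)
    nlinarith
  rw [Finset.sum_add_distrib, ← Finset.mul_sum, ← Finset.mul_sum,
    sum_univ_eq T (fun u => wt u * x u), hr] at h3
  linarith

/-- the recursion for the movement of the parameters `s` -/
theorem recS {τ : ℝ} {wt : V → ℝ} (hτ : 16 ≤ τ) (hw : T.Wt τ wt) (Y x a : V → ℝ)
    (h0 : ∀ v, 0 ≤ Y v) (hY : T.SupA Y) (hr : x T.root = 0) (hx : ∀ v, 0 ≤ x v)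
    (h : ∀ v, v ≠ T.root → x v ≤ x (T.par v) + a v) :
    ∑ v ∈ T.nr, wt v * (Y v * x v) ≤ 16 / 15 * ∑ v ∈ T.nr, wt v * (Y v * a v) := by
  have h1 : ∑ v ∈ T.nr, wt v * (Y v * x v) ≤
      ∑ v ∈ T.nr, wt v * (Y v * x (T.par v)) + ∑ v ∈ T.nr, wt v * (Y v * a v) := by
    rw [← Finset.sum_add_distrib]
    refine Finset.sum_le_sum fun v hv => ?_
    rw [← mul_add, ← mul_add]
    exact mul_le_mul_of_nonneg_left
      (mul_le_mul_of_nonneg_left (h v ((mem_nr T).1 hv)) (h0 v)) (hw.1 v).le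
  have h2 := sum_nr_par T hτ hw Y x
  have h3 : ∑ u, wt u / τ * ((∑ v ∈ T.ch u, Y v) * x u) ≤ ∑ u, 1 / 16 * (wt u * (Y u * x u)) := by
    refine Finset.sum_le_sum fun u _ => ?_
    have e1 : (∑ v ∈ T.ch u, Y v) * x u ≤ Y u * x u := mul_le_mul_of_nonneg_right (hY u) (hx u)
    calc wt u / τ * ((∑ v ∈ T.ch u, Y v) * x u) ≤ wt u / 16 * (Y u * x u) :=
          mul_le_mul (wt_div_le T hτ hw u) e1
            (mul_nonneg (Finset.sum_nonneg fun v _ => h0 v) (hx u))
            (div_nonneg (hw.1 u).le (by norm_num))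
      _ = _ := by ring
  rw [← Finset.mul_sum, sum_univ_eq T (fun u => wt u * (Y u * x u)), hr] at h3
  linarith

/-- induction from the root -/
theorem tree_ind (p : V → Prop) (hr : p T.root) (h : ∀ v, v ≠ T.root → p (T.par v) → p v) (v : V) :
    p v := by
  have key : ∀ n v, T.dep v = n → p v := by
    intro n
    induction n with
    | zero =>
      intro v hv
      by_cases h' : v = T.root
      · rw [h']; exact hr
      · rw [T.dep_par v h'] at hv; omega
    | succ n ih =>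
      intro v hv
      by_cases h' : v = T.root
      · rw [h']; exact hr
      · exact h v h' (ih _ (by rw [T.dep_par v h'] at hv; omega))
  exact key _ v rfl

end Crest.Agent.R314H
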