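import Crest.Agent.R314H.Defs
import Crest.Agent.R314H.Tree

/-! Row 314 (H): the task TREE. -/

set_option autoImplicit false

namespace Crest.Agent.KS.H

open Finset
open scoped Classical

namespace TREE

variable {V : Type} [Fintype V] (T : Tr V)

omit [Fintype V] in
theorem ps_root (f : V → ℝ) : ps T f T.root = 0 := by
  unfold ps
  rw [T.dep_root, Finset.sum_range_zero]

omit [Fintype V] in
theorem ps_step (f : V → ℝ) (v : V) (hv : v ≠ T.root) : ps T f v = f v + ps T f (T.par v) := by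
  unfold ps
  rw [T.dep_par v hv, Finset.sum_range_succ', add_comm]
  rfl

theorem ps_nonneg (f : V → ℝ) (h : ∀ v, 0 ≤ f v) (v : V) : 0 ≤ ps T f v :=
  Finset.sum_nonneg fun _ _ => h _

omit [Fintype V] in
theorem al_iff (a : V → ℝ) (v : V) : al T a v ↔ 1 ≤ a v ∧ al T a (T.par v) := by
  constructor
  · intro h
    exact ⟨h 0, fun n => h (n + 1)⟩
  · rintro ⟨h0, h⟩ n
    cases n with
    | zero => exact h0
    | succ n => exact h n

theorem le_par (Y : V → ℝ) (h0 : ∀ v, 0 ≤ Y v) (hY : T.SupA Y) (v : V) : Y v ≤ Y (T.par v) := by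
  by_cases hv : v = T.root
  · rw [hv, T.par_root]
  · have hm : v ∈ T.ch (T.par v) := (R314H.mem_ch T).2 ⟨hv, rfl⟩
    exact (Finset.single_le_sum (fun y _ => h0 y) hm).trans (hY _)

end TREE

theorem TREE_proof : TreeStmt := by
  intro V _ T
  refine ⟨fun Q h0 h v => R314H.tree_ind T Q h0 h v,
    fun f => ⟨TREE.ps_root T f, TREE.ps_step T f⟩, TREE.al_iff T, ?_, R314H.sum_nr T,
    R314H.sum_univ_eq T, ?_, ?_, ?_, ?_⟩
  · intro k s
    refine ⟨?_, fun v hv => ?_⟩
    · unfold zz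
      rw [T.dep_root]
      rfl
    · unfold zz
      rw [T.dep_par v hv]
      rfl
  · intro a v y hv hy h
    rw [hv.2, hy.2, h]
  · intro a u y hy
    have h : cand T a u (@Classical.epsilon V ⟨T.root⟩ (cand T a u)) :=
      Classical.epsilon_spec (p := cand T a u) ⟨y, hy⟩
    have hp := ((R314H.mem_ch T).1 h.1).2
    refine ⟨_, h.1, ?_, ?_⟩
    · rw [hp]; exact h
    · rw [hp]
  · intro Y h0 hY v
    refine ⟨TREE.le_par T Y h0 hY v, ?_⟩
    refine R314H.tree_ind T (fun v => Y v ≤ Y T.root) le_rfl (fun v _ h => ?_) v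
    exact (TREE.le_par T Y h0 hY v).trans h
  · intro τ wt Y hτ hw h0 hY
    refine ⟨?_, fun ε hε => ?_⟩
    · have h1 := R314H.level T hτ hw Y h0 hY
      have h2 : 0 ≤ wt T.root * Y T.root := mul_nonneg (hw.1 _).le (h0 _)
      rw [R314H.sum_univ_eq T (fun v => wt v * Y v)]
      linarith
    · have h1 := R314H.recS T hτ hw Y (ps T ε) ε h0 hY (TREE.ps_root T ε) (TREE.ps_nonneg T ε hε)
        (fun v hv => by rw [TREE.ps_step T ε v hv, add_comm])
      have h2 : 0 ≤ ∑ v ∈ T.nr, wt v * (Y v * ε v) :=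
        Finset.sum_nonneg fun v _ => mul_nonneg (hw.1 v).le (mul_nonneg (h0 v) (hε v))
      have e1 : ∑ v ∈ T.nr, wt v * (ps T ε v * Y v) = ∑ v ∈ T.nr, wt v * (Y v * ps T ε v) :=
        Finset.sum_congr rfl fun v _ => by rw [mul_comm (Y v)]
      have e2 : ∑ v ∈ T.nr, wt v * (ε v * Y v) = ∑ v ∈ T.nr, wt v * (Y v * ε v) :=
        Finset.sum_congr rfl fun v _ => by rw [mul_comm (Y v)]
      rw [e1, e2]
      linarith

end Crest.Agent.KS.H
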