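import Crest.Agent.KS.Bay
import Crest.Agent.R314H.EP1
import Crest.Agent.R314H.Eps
import Crest.Agent.R314H.FEAS
import Crest.Agent.R314H.FIN
import Crest.Agent.R314H.Goodp
import Crest.Agent.R314H.INV
import Crest.Agent.R314H.KAP
import Crest.Agent.R314H.MART
import Crest.Agent.R314H.NA
import Crest.Agent.R314H.NC
import Crest.Agent.R314H.NODE
import Crest.Agent.R314H.One
import Crest.Agent.R314H.Par
import Crest.Agent.R314H.Step
import Crest.Agent.R314H.TAN
import Crest.Agent.R314H.TreeP

set_option autoImplicit false

namespace Crest.Agent.KS.H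

theorem H_proof : HStmt := by
  have hBay := BAY_proof
  have hTree := TREE_proof
  have hOne := ONE_proof
  have hPar := PAR_proof hTree hOne
  have hInv := INV_proof hTree hOne hPar
  have hFeas := FEAS_proof hTree hOne
  have hEp1 := EP1_proof hTree hOne
  have hEps := EPS_proof hTree hOne
  have hKap := KAP_proof hOne
  have hNa := NA_proof hTree hOne hFeas hEp1
  have hNc := NC_proof hTree hOne hKap hEp1
  have hNode := NODE_proof hOne hInv hKap hNa hNc
  have hTan := TAN_proof hTree hOne hKap
  have hStep := STEP_proof hTree hOne hInv hEp1 hEps hNode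
  have hGoodp := GOODP_proof hBay hTree
  have hMart := MART_proof hBay hTree
  exact FIN_proof hBay hTree hOne hInv hFeas hTan hStep hGoodp hMart

end Crest.Agent.KS.H
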