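import Crest.Agent.KS.DefsI

/-!
Row 314, part H: the fractional algorithm on a static tree. `p v i` is the posterior probability that
more than `i` offline servers are below `v`.
-/

set_option autoImplicit false

namespace Crest.Agent.KS.H

open Finset
open scoped Classical

/-- `log (k+1) ≥ 1` -/
noncomputable def LL (k : ℕ) : ℝ := Real.log (k + 1)
/-- the small constant -/
noncomputable def cc : ℝ := 1 / 20000
/-- potential of the slot tracker -/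
def th (r p : ℝ) : ℝ := 3 * r ^ 2 - 8 * p * r + 5 * p
/-- slot tracker -/
def clp (r p : ℝ) : ℝ := max p (min r (2 * p))
/-- size class -/
noncomputable def cls (a ρ : ℝ) : ℝ := if ρ ≤ a ∧ a ≤ 2 * ρ then a else 3 / 2 * ρ
/-- coefficient of `G` in the potential of a light child -/
noncomputable def AA (e d q : ℝ) : ℝ := 8 * q / e - 4 * d * (2 - e) / e ^ 2 * Real.log (1 + e * q / d)
/-- coefficient of `g` in the potential of a light child -/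
noncomputable def BB (e d q : ℝ) : ℝ := (8 + 6 * e) / e * Real.log (1 + e * q / d)
/-- projection on the band -/
noncomputable def prj (e d g G q : ℝ) : ℝ :=
  if G = 0 then 0 else max (max (((1 + e / 2) * g - d * G) / G) 0) (min q ((1 + e) * g / G))

/-- state -/
structure St (V : Type) (k : ℕ) where
  r : V → Fin k → ℝ
  a : V → ℝ
  q : V → ℝ

section

variable {V : Type} [Fintype V] {k : ℕ}

/-- sum of squares -/
def MM (p : V → Fin k → ℝ) (v : V) : ℝ := ∑ i, p v i ^ 2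
/-- slack -/
def Gam (p : V → Fin k → ℝ) (v : V) : ℝ := ∑ i, p v i ^ 2 * (1 - p v i)
/-- the lower bound for the mass -/
def ZZ (p : V → Fin k → ℝ) (s : ℝ) (v : V) : ℝ := ∑ i, ((1 - s) * p v i ^ 2 + s * p v i ^ 3)

variable (T : Tr V)

/-- admissible posteriors -/
structure Good (p : V → Fin k → ℝ) : Prop where
  p01 : ∀ v i, 0 ≤ p v i ∧ p v i ≤ 1
  root : ∀ i, p T.root i = 1
  lin : T.SupA (fun v => ∑ i, p v i)
  sq : T.SupA (fun v => ∑ i, p v i ^ 2)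
  cu : T.SupA (fun v => ∑ i, p v i ^ 3)

/-- sum along the path to the root (root excluded) -/
def ps (f : V → ℝ) (v : V) : ℝ := ∑ n ∈ range (T.dep v), f (T.par^[n] v)
/-- alive -/
def al (a : V → ℝ) (v : V) : Prop := ∀ n : ℕ, 1 ≤ a (T.par^[n] v)
/-- candidates for the heavy child of `u` -/
def cand (a : V → ℝ) (u y : V) : Prop := y ∈ T.ch u ∧ al T a y ∧ a u ≤ 16 * a y
/-- heavy -/
def hv (a : V → ℝ) (v : V) : Prop :=
  cand T a (T.par v) v ∧ v = @Classical.epsilon V ⟨T.root⟩ (cand T a (T.par v))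
/-- light -/
def lt (a : V → ℝ) (v : V) : Prop := v ≠ T.root ∧ al T a v ∧ ¬ hv T a v
/-- additive width -/
noncomputable def dd (k : ℕ) (a : V → ℝ) (v : V) : ℝ := cc / 16 * a v / (a (T.par v) * LL k)
/-- total additive width -/
noncomputable def DD (k : ℕ) (a : V → ℝ) (u : V) : ℝ :=
  ∑ v ∈ T.ch u, if lt T a v then dd T k a v else 0
/-- multiplicative width -/
noncomputable def ee (k : ℕ) (a : V → ℝ) (v : V) : ℝ :=
  if lt T a v then cc * (1 + Real.log (8 * a (T.par v) / a v)) / LL k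
  else if hv T a v then DD T k a (T.par v) else 0
/-- interpolation parameter -/
noncomputable def ss (k : ℕ) (a : V → ℝ) (v : V) : ℝ := 9 * ps T (ee T k a) v
/-- gap of an alive node -/
noncomputable def gt (p r : V → Fin k → ℝ) (a : V → ℝ) (v : V) : ℝ :=
  if al T a v then MM r v - ZZ p (ss T k a (T.par v)) v else 0
/-- total gap of the children -/
noncomputable def GG (p r : V → Fin k → ℝ) (a : V → ℝ) (u : V) : ℝ := ∑ v ∈ T.ch u, gt T p r a v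
/-- reference mass -/
noncomputable def rt (r : V → Fin k → ℝ) (a : V → ℝ) (v : V) : ℝ := if al T a v then MM r v else 0
/-- share of the deficit -/
noncomputable def qt (a q : V → ℝ) (v : V) : ℝ :=
  if hv T a v then max 0 (1 - ∑ y ∈ T.ch (T.par v), q y) else q v
/-- deficit at `u`, if the mass of `u` is `x` -/
noncomputable def dfc (s : St V k) (u : V) (x : ℝ) : ℝ := max (∑ y ∈ T.ch u, rt T s.r s.a y - x) 0
/-- the masses, by recursion on the depth -/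
noncomputable def zr (s : St V k) : ℕ → V → ℝ
  | 0, _ => k
  | n + 1, v => rt T s.r s.a v - qt T s.a s.q v * dfc T s (T.par v) (zr s n (T.par v))
/-- the masses -/
noncomputable def zz (s : St V k) (v : V) : ℝ := zr T s (T.dep v) v
/-- the parameters of `v` do not change -/
def keep (a a' : V → ℝ) (v : V) : Prop :=
  lt T a v ∧ lt T a' v ∧ a v = a' v ∧ a (T.par v) = a' (T.par v)
/-- the shares after the reset -/
noncomputable def q0 (a a' q : V → ℝ) (v : V) : ℝ := if keep T a a' v then q v else 0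
/-- new trackers -/
def nr' (p : V → Fin k → ℝ) (s : St V k) : V → Fin k → ℝ := fun v i => clp (s.r v i) (p v i)
/-- new classes -/
noncomputable def na (p : V → Fin k → ℝ) (s : St V k) : V → ℝ := fun v => cls (s.a v) (MM (nr' p s) v)
/-- the update -/
noncomputable def upd (p : V → Fin k → ℝ) (s : St V k) : St V k where
  r := nr' p s
  a := na p s
  q := fun v => if lt T (na p s) v then
      prj (ee T k (na p s) v) (dd T k (na p s) v) (gt T p (nr' p s) (na p s) v)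
        (GG T p (nr' p s) (na p s) (T.par v)) (q0 T s.a (na p s) s.q v)
    else 0

/-- properties of the classes -/
structure ParOk (k : ℕ) (a : V → ℝ) : Prop where
  nonneg : ∀ v, 0 ≤ a v
  root : al T a T.root
  e01 : ∀ v, 0 ≤ ee T k a v ∧ ee T k a v ≤ 1
  s01 : ∀ v, 0 ≤ ss T k a v ∧ ss T k a v ≤ 1
  light : ∀ v, lt T a v → cc / LL k ≤ ee T k a v ∧ 0 < dd T k a v ∧
    DD T k a (T.par v) ≤ ee T k a v / 2 ∧
    ∀ q, 0 ≤ q → q ≤ 2 → BB (ee T k a v) (dd T k a v) q ≤ 560000 * LL k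

/-- properties of the shares -/
structure QOk (a q : V → ℝ) : Prop where
  nonneg : ∀ v, 0 ≤ q v
  zero : ∀ v, ¬ lt T a v → q v = 0
  sum : ∀ u, ∑ v ∈ T.ch u, q v ≤ 2

/-- the invariant -/
structure Inv (p : V → Fin k → ℝ) (s : St V k) : Prop where
  good : Good T p
  rb : ∀ v i, p v i ≤ s.r v i ∧ s.r v i ≤ 2 * p v i ∧ s.r v i ≤ 1
  ab : ∀ v, MM s.r v ≤ s.a v ∧ s.a v ≤ 2 * MM s.r v
  par : ParOk T k s.a
  qok : QOk T s.a s.q
  band : ∀ v, lt T s.a v →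
    (1 + ee T k s.a v / 2) * gt T p s.r s.a v - dd T k s.a v * GG T p s.r s.a (T.par v) ≤
      s.q v * GG T p s.r s.a (T.par v) ∧
    s.q v * GG T p s.r s.a (T.par v) ≤ (1 + ee T k s.a v) * gt T p s.r s.a v

/-- coefficient of the gap of `v` -/
noncomputable def kap (k : ℕ) (a q : V → ℝ) (v : V) : ℝ :=
  1120000 * LL k +
    2 * (∑ y ∈ T.ch (T.par v), if lt T a y then AA (ee T k a y) (dd T k a y) (q y) else 0) -
    2 * (if lt T a v then BB (ee T k a v) (dd T k a v) (q v) else 0)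
/-- potential of a node -/
noncomputable def psi (p r : V → Fin k → ℝ) (a q : V → ℝ) (u : V) : ℝ :=
  ∑ v ∈ T.ch u, kap T k a q v * gt T p r a v
/-- the potential -/
noncomputable def Phi (τ : ℝ) (wt : V → ℝ) (p : V → Fin k → ℝ) (s : St V k) : ℝ :=
  ∑ v, wt v * (3 * 10 ^ 10 * LL k * ∑ i, th (s.r v i) (p v i) +
      2 * 10 ^ 10 * LL k * |2 / 3 * s.a v - MM s.r v|) +
    ∑ u, wt u / τ * psi T p s.r s.a s.q u

/-- event -/
noncomputable def ev (a a' : V → ℝ) (v : V) : ℝ := if a v = a' v then 0 else 1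
/-- big event -/
noncomputable def eta (a a' : V → ℝ) (u : V) : ℝ :=
  if al T a u ∧ al T a' u ∧ ¬ (a u = a' u ∧ ∀ y ∈ T.ch u, (hv T a y ↔ hv T a' y)) then 1 else 0
/-- size of the change at `v` -/
noncomputable def eps (k : ℕ) (a a' : V → ℝ) (v : V) : ℝ :=
  eta T a a' (T.par v) + ev a a' v +
    if hv T a v ∧ hv T a' v then
      cc / 16 / (a' (T.par v) * LL k) * ∑ y ∈ T.ch (T.par v), ev a a' y * (a y + a' y)
    else 0
/-- accumulated change -/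
noncomputable def sig (k : ℕ) (a a' : V → ℝ) (v : V) : ℝ := ps T (eps T k a a') v

end

/-- **TREE**. Induction on the depth; recurrences (`Finset.sum_range_succ'`,
`Function.iterate_succ_apply`); sums over the children (`Finset.sum_fiberwise`); geometric sums:
`S = ∑_{nr} wt v · ps ε v · Y v = E + ∑_u (wt u/τ) ps ε u ∑_{ch u} Y ≤ E + S/16`. -/
def TreeStmt : Prop :=
  ∀ (V : Type) [Fintype V] (T : Tr V),
    (∀ Q : V → Prop, Q T.root → (∀ v, v ≠ T.root → Q (T.par v) → Q v) → ∀ v, Q v) ∧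
    (∀ f : V → ℝ, ps T f T.root = 0 ∧ ∀ v, v ≠ T.root → ps T f v = f v + ps T f (T.par v)) ∧
    (∀ (a : V → ℝ) (v : V), al T a v ↔ 1 ≤ a v ∧ al T a (T.par v)) ∧
    (∀ (k : ℕ) (s : St V k), zz T s T.root = k ∧ ∀ v, v ≠ T.root →
      zz T s v = rt T s.r s.a v - qt T s.a s.q v * dfc T s (T.par v) (zz T s (T.par v))) ∧
    (∀ f : V → ℝ, ∑ v ∈ T.nr, f v = ∑ u, ∑ v ∈ T.ch u, f v) ∧
    (∀ f : V → ℝ, ∑ v, f v = f T.root + ∑ v ∈ T.nr, f v) ∧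
    (∀ (a : V → ℝ) (v y : V), hv T a v → hv T a y → T.par v = T.par y → v = y) ∧
    (∀ (a : V → ℝ) (u y : V), cand T a u y → ∃ h ∈ T.ch u, hv T a h) ∧
    (∀ Y : V → ℝ, (∀ v, 0 ≤ Y v) → T.SupA Y → ∀ v, Y v ≤ Y (T.par v) ∧ Y v ≤ Y T.root) ∧
    ∀ (τ : ℝ) (wt Y : V → ℝ), 16 ≤ τ → T.Wt τ wt → (∀ v, 0 ≤ Y v) → T.SupA Y →
      (∑ v, wt v * Y v ≤ 2 * (wt T.root * Y T.root)) ∧
      ∀ ε : V → ℝ, (∀ v, 0 ≤ ε v) →
        ∑ v ∈ T.nr, wt v * (ps T ε v * Y v) ≤ 2 * ∑ v ∈ T.nr, wt v * (ε v * Y v)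

/-- **ONE**. One dimensional facts. Projection: with `Λ q = log (1 + e q/d)`,
`Λ x - Λ y ≤ e (x - y)/(d + e y)` for all `x, y ≥ 0` (`log t ≤ t - 1`), so with `y = prj`:
`Ψ x - Ψ y ≥ (x - y) φ`, `φ = 8G/e - (4dG(2-e)/e + g(8+6e))/(d + e y)`, and `φ ≥ G` if
`y G = (1+e) g`, `φ ≤ -G` if `y G = (1+e/2) g - d G`. -/
def OneStmt : Prop :=
  (∀ k : ℕ, 2 ≤ k → 1 ≤ LL k) ∧
  (∀ r p : ℝ, 0 ≤ r → r ≤ 1 → 0 ≤ p → p ≤ 1 →
    0 ≤ th r p ∧ (p ≤ clp r p ∧ clp r p ≤ 2 * p ∧ clp r p ≤ 1) ∧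
      th (clp r p) p + |clp r p ^ 2 - r ^ 2| ≤ th r p) ∧
  (∀ a ρ : ℝ, 0 ≤ ρ → (ρ ≤ cls a ρ ∧ cls a ρ ≤ 2 * ρ) ∧ (0 ≤ a →
    |2 / 3 * cls a ρ - ρ| + (if a = cls a ρ then 0 else 1) * (a + cls a ρ) / 11 ≤ |2 / 3 * a - ρ|)) ∧
  (∀ e d q : ℝ, 0 < e → e ≤ 1 → 0 < d → 0 ≤ q →
    4 * q ≤ AA e d q ∧ AA e d q ≤ 8 * q / e ∧ 0 ≤ BB e d q) ∧
  (∀ e d : ℝ, AA e d 0 = 0 ∧ BB e d 0 = 0) ∧
  (∀ e d g G q : ℝ, 0 < e → e ≤ 1 → 0 < d → 0 ≤ g → g ≤ G → 0 ≤ q →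
    0 ≤ prj e d g G q ∧ (1 + e / 2) * g - d * G ≤ prj e d g G q * G ∧
      prj e d g G q * G ≤ (1 + e) * g ∧ (G = 0 → prj e d g G q = 0) ∧
      G * |prj e d g G q - q| + (G * AA e d (prj e d g G q) - g * BB e d (prj e d g G q)) ≤
        G * AA e d q - g * BB e d q) ∧
  ∀ (V : Type) (k : ℕ) (p r : V → Fin k → ℝ) (v : V), (∀ i, 0 ≤ p v i ∧ p v i ≤ 1) →
    (0 ≤ Gam p v ∧ Gam p v ≤ MM p v ∧ ∀ s, ZZ p s v = MM p v - s * Gam p v) ∧
    ((∀ i, p v i ≤ r v i ∧ r v i ≤ 2 * p v i ∧ r v i ≤ 1) →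
      MM p v ≤ MM r v ∧ MM r v ≤ 4 * MM p v ∧ MM r v ≤ 2 * ∑ i, p v i ∧
      ∀ s, 0 ≤ s → s ≤ 1 → 0 ≤ ZZ p s v ∧ 0 ≤ MM r v - ZZ p s v ∧ MM r v - ZZ p s v ≤ 9 * Gam p v)

/-- **PAR** (uses TREE, ONE). `M = MM p`, `M ≤ a ≤ 8M`, `u = par v`, `λ = log (M u / M v)` for alive
`v` (`M v ≥ 1/8`). Light: `M v ≤ 127/128 M u` (if `a u ≤ 16 a v` there is a heavy sibling `h`,
`M h ≥ M u/128`, `M v + M h ≤ M u`), so `λ ≥ 1/128`, `1 + log (8 a u/a v) ≤ 5.2 + λ ≤ 667 λ`. Heavy: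
`DD ≤ cc/2 (M u - M v)/(M u L) ≤ cc λ/L`. By induction `ss v ≤ 9·667 cc log (k/M v)/L ≤ 1` for alive
`v` (`log (8k) ≤ 3L` as `log 8 ≤ 2 log 3`); dead nodes have `ee = 0`. `BB`: with `x = log (8 a u/a v) ≥ 0`,
`e/d = 2 (1+x) eˣ`, `log (1 + 4 (1+x) eˣ) ≤ 2 (1+x)`, `(8+6e)/e ≤ 14/e`. -/
def ParStmt : Prop :=
  ∀ (V : Type) [Fintype V] (T : Tr V) (k : ℕ) (p : V → Fin k → ℝ) (a : V → ℝ), 2 ≤ k → Good T p →
    (∀ v, MM p v ≤ a v ∧ a v ≤ 8 * MM p v) → ParOk T k a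

/-- **INV** (uses TREE, ONE, PAR). `∑ q ≤ 2`: if `G > 0`, `∑ q G ≤ 2 ∑ g = 2G`. -/
def InvStmt : Prop :=
  ∀ (V : Type) [Fintype V] (T : Tr V) (k : ℕ) (p : V → Fin k → ℝ) (s : St V k), 2 ≤ k → Good T p →
    (∀ v i, 0 ≤ s.r v i ∧ s.r v i ≤ 1) → (∀ v, 0 ≤ s.q v) → Inv T p (upd T p s)

/-- **FEAS** (uses TREE, ONE). Induction on the depth for: alive `→ ZZ p (ss v) v ≤ zz v`, dead
`→ zz v = 0`. If `u` is alive, `∑_{alive children} ZZ p (ss u) ≤ ZZ p (ss u) u ≤ zz u`, so the deficit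
is `≤ G`; `ZZ p (ss v) v = ZZ p (ss u) v - 9 e Γ`, `qt · deficit ≤ qt G ≤ (1+e) g ≤ g + 9 e Γ`. For the
heavy child `h`: `(1 - ∑ q) G ≤ g_h - ∑ (e_v/2) g_v + D G ≤ (1 + D) g_h`. `SupA`: `∑ qt ≥ 1` if there
is a heavy child; otherwise `∑ q G ≥ G`, so `∑ q ≥ 1` or the deficit vanishes. -/
def FeasStmt : Prop :=
  ∀ (V : Type) [Fintype V] (T : Tr V) (k : ℕ) (p : V → Fin k → ℝ) (s : St V k), Inv T p s →
    T.SupA (zz T s) ∧ (∀ v, 0 ≤ zz T s v ∧ zz T s v ≤ 2 * ∑ i, p v i) ∧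
    (∀ v i, p v i = 1 → 1 ≤ zz T s v) ∧
    ∀ u, dfc T s u (zz T s u) ≤ GG T p s.r s.a u

/-- **EP1** (uses TREE, ONE). If `eta (par v) = ev v = 0` and `v` is alive twice, then `ee v` is
unchanged (light) or changes by at most the last term of `eps` (heavy; for a sibling `y` with
`a y = a' y` the status is unchanged); otherwise `eps v ≥ 1`. -/
def Ep1Stmt : Prop :=
  ∀ (V : Type) [Fintype V] (T : Tr V) (k : ℕ) (a a' : V → ℝ), 2 ≤ k → ParOk T k a → ParOk T k a' →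
    (∀ v, 0 ≤ eps T k a a' v ∧ 0 ≤ sig T k a a' v ∧ sig T k a a' (T.par v) ≤ sig T k a a' v) ∧
    (∀ v, al T a v → al T a' v → |ss T k a' v - ss T k a v| ≤ 9 * sig T k a a' v) ∧
    (∀ v, ¬ (al T a v ↔ al T a' v) → 1 ≤ sig T k a a' v) ∧
    (∀ v, lt T a v ∨ lt T a' v → ¬ keep T a a' v → 1 ≤ sig T k a a' v) ∧
    ∀ u, (∃ y ∈ T.ch u, ¬ (hv T a y ↔ hv T a' y)) → ∀ v ∈ T.ch u, 1 ≤ sig T k a a' v

/-- **EPS** (uses TREE, ONE). If `eta u = 1` and `a u = a' u`, the predicates `cand a u`, `cand a' u`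
differ, so some child `y` has `a y ≠ a' y` and `a u ≤ 16 (a y + a' y)`. -/
def EpsStmt : Prop :=
  ∀ (V : Type) [Fintype V] (T : Tr V) (k : ℕ) (τ : ℝ) (wt a a' Y : V → ℝ), 2 ≤ k → 16 ≤ τ →
    T.Wt τ wt → (∀ v, 0 ≤ a v) → (∀ v, 0 ≤ Y v ∧ Y v ≤ a' v) → T.SupA Y →
    ∑ v ∈ T.nr, wt v * (eps T k a a' v * Y v) ≤ 19 * ∑ v, wt v * (ev a a' v * (a v + a' v))

/-- **KAP** (uses ONE). Bounds (`AA ≤ 8 q L/cc`, `∑ q ≤ 2`) and the second form of `psi`. -/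
def KapStmt : Prop :=
  ∀ (V : Type) [Fintype V] (T : Tr V) (k : ℕ) (a q : V → ℝ),
    (2 ≤ k → ParOk T k a → QOk T a q → ∀ v, 0 ≤ kap T k a q v ∧ kap T k a q v ≤ 1760000 * LL k) ∧
    ∀ (p r : V → Fin k → ℝ) (u : V), psi T p r a q u = 1120000 * LL k * GG T p r a u +
      2 * ∑ v ∈ T.ch u, if lt T a v then
        GG T p r a u * AA (ee T k a v) (dd T k a v) (q v) -
          gt T p r a v * BB (ee T k a v) (dd T k a v) (q v) else 0

/-- **NA** (uses TREE, ONE, FEAS, EP1). `|Δz v| ≤ |Δ rt v| + qt v |Δ dfc| + dfc' |Δ qt v|`,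
`∑ qt ≤ 3`, `|Δ dfc| ≤ ∑ |Δ rt| + |Δz u|`, `|Δ rt v| ≤ δ v + 4 σ v M' v`, `dfc' ≤ G' ≤ 9 ∑ M'`;
`qt = q + (heavy part)`, `∑ |Δ qt| ≤ 2 ∑ |Δ q|` if the heavy child is unchanged, `≤ ∑ |Δ q| + 2` always. -/
def NaStmt : Prop :=
  ∀ (V : Type) [Fintype V] (T : Tr V) (k : ℕ) (p p' : V → Fin k → ℝ) (s s' : St V k), 2 ≤ k →
    Inv T p s → Inv T p' s' → ∀ u,
    ∑ v ∈ T.ch u, |zz T s' v - zz T s v| ≤ 3 * |zz T s' u - zz T s u| +
      4 * ∑ v ∈ T.ch u, |MM s'.r v - MM s.r v| + 34 * ∑ v ∈ T.ch u, sig T k s.a s'.a v * MM p' v +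
      2 * GG T p' s'.r s'.a u * ∑ v ∈ T.ch u, |s'.q v - s.q v|

/-- **NC** (uses TREE, ONE, KAP, EP1). Change of the classes. `g = gt p r a`, `g' = gt p r a'` are in
`[0, 9 M]`, `|g' v - g v| ≤ 9 σ v M v`, `W = ∑ σ M`, `|G' - G| ≤ 9 W`. Kept children have the same
`ee`, `dd`; new light children have `q0 = 0`; a child that is reset gains `2 G AA ≥ 8 G q` and loses
`2 g BB ≤ 2 · 560000 L · 9 σ M`. -/
def NcStmt : Prop :=
  ∀ (V : Type) [Fintype V] (T : Tr V) (k : ℕ) (p r : V → Fin k → ℝ) (a a' q : V → ℝ), 2 ≤ k →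
    Good T p → (∀ v i, p v i ≤ r v i ∧ r v i ≤ 2 * p v i ∧ r v i ≤ 1) → ParOk T k a → ParOk T k a' →
    QOk T a q → ∀ u,
    psi T p r a' (q0 T a a' q) u + 2 * GG T p r a' u * ∑ v ∈ T.ch u, |q0 T a a' q v - q v| ≤
      psi T p r a q u + 38000000 * LL k * ∑ v ∈ T.ch u, sig T k a a' v * MM p v

/-- **NODE** (uses ONE, INV, KAP, NA, NC). Three moves: `r → r'` (costs `1760000 L ∑ δ`), `a → a'`
(NC), projection `q0 → q'` (ONE, second form of `psi`; `q0 = q' = 0` off the light children). -/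
def NodeStmt : Prop :=
  ∀ (V : Type) [Fintype V] (T : Tr V) (k : ℕ) (p p' : V → Fin k → ℝ) (s : St V k), 2 ≤ k →
    Inv T p s → Good T p' → ∀ u,
    ∑ v ∈ T.ch u, |zz T (upd T p' s) v - zz T s v| +
      (psi T p' (upd T p' s).r (upd T p' s).a (upd T p' s).q u - psi T p' s.r s.a s.q u) ≤
      3 * |zz T (upd T p' s) u - zz T s u| + 40000000 * LL k *
        ∑ v ∈ T.ch u, (|MM (upd T p' s).r v - MM s.r v| + sig T k s.a (upd T p' s).a v * MM p' v)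

/-- **TAN** (uses TREE, ONE, KAP). `th` is linear in `p`; `x ↦ (1-s) x² + s x³` is above its tangent on
`[0,1]`: `β v i = 3·10¹⁰ L (5 - 8 r) - [v ≠ root, alive] κ v (2 (1-s) p + 3 s p²)`. Second part:
`th ≤ 11 p`, `|2a/3 - ρ| ≤ ρ/3`, `gt ≤ ρ ≤ 2 ∑ p`. -/
def TanStmt : Prop :=
  ∀ (V : Type) [Fintype V] (T : Tr V) (k : ℕ) (τ : ℝ) (wt : V → ℝ) (p : V → Fin k → ℝ) (s : St V k),
    2 ≤ k → 16 ≤ τ → T.Wt τ wt → Inv T p s →
    (∃ β : V → Fin k → ℝ, (∀ v i, |β v i| ≤ 2 * 10 ^ 11 * LL k) ∧ ∀ p' : V → Fin k → ℝ, Good T p' →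
      Phi T τ wt p' s - Phi T τ wt p s ≤ ∑ v, wt v * ∑ i, β v i * (p' v i - p v i)) ∧
    0 ≤ Phi T τ wt p s ∧ Phi T τ wt p s ≤ 10 ^ 12 * LL k * (k * wt T.root)

/-- **STEP** (uses TREE, ONE, INV, EP1, EPS, NODE). Sum NODE with the weights `wt u/τ`
(`3/τ ≤ 1/2`, `Δz root = 0`); TREE and EPS bound `∑ wt σ M'` by `38 ∑ wt ev (a + a')`, which the class
potential pays (`4·10⁷·38·11 ≤ 2·10¹⁰`); the tracker potential pays `(4·10⁷ + 2·10¹⁰) L ∑ wt δ`. -/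
def StepStmt : Prop :=
  ∀ (V : Type) [Fintype V] (T : Tr V) (k : ℕ) (τ : ℝ) (wt : V → ℝ) (p p' : V → Fin k → ℝ)
    (s : St V k), 2 ≤ k → 16 ≤ τ → T.Wt τ wt → Inv T p s → Good T p' →
    T.mv wt (zz T s) (zz T (upd T p' s)) / 2 + Phi T τ wt p' (upd T p' s) ≤ Phi T τ wt p' s

/-- the posterior -/
noncomputable def post {V Ω : Type} [Fintype Ω] (P : Bay Ω) (N : ℕ → Ω → V → ℕ) (k t : ℕ) (ω : Ω) :
    V → Fin k → ℝ := fun v i => P.cond t (fun b => if i.val < N t b v then 1 else 0) ω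

/-- **GOODP** (uses BAY, TREE). With the conditional weights `μ`, `∑_i p² = ∑_{b,b'} μ μ' min (N b, N b')`
(`N ≤ k`), the same for cubes, and `∑_{ch u} min (N b v) (N b' v) ≤ min (N b u) (N b' u)`. -/
def GoodpStmt : Prop :=
  ∀ (k : ℕ) (V : Type) [Fintype V] (T : Tr V) (Ω : Type) [Fintype Ω] (P : Bay Ω) (N : ℕ → Ω → V → ℕ),
    (∀ t ω, N t ω T.root = k) → (∀ t ω, T.SupA (fun v => (N t ω v : ℝ))) → ∀ t ω,
      Good T (post P N k t ω) ∧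
      (∀ v, ∑ i, post P N k t ω v i = P.cond t (fun b => (N t b v : ℝ)) ω) ∧
      ∀ v (i : Fin k), i.val = 0 → (∀ b, P.eqv t ω b → 1 ≤ N t b v) → post P N k t ω v i = 1

/-- **MART** (uses BAY, TREE). `Ex (β · cond f) = Ex (β · f)` at the times `t` and `t + 1`;
`∑_i |1[i < n'] - 1[i < n]| ≤ |n' - n|`; the root term vanishes. -/
def MartStmt : Prop :=
  ∀ (k : ℕ) (V : Type) [Fintype V] (T : Tr V) (wt : V → ℝ) (Ω : Type) [Fintype Ω] (P : Bay Ω)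
    (N : ℕ → Ω → V → ℕ) (t : ℕ) (β : Ω → V → Fin k → ℝ) (K : ℝ), 0 ≤ K → (∀ v, 0 ≤ wt v) →
    (∀ t ω, N t ω T.root = k) → P.Ad t β → (∀ ω v i, |β ω v i| ≤ K) →
    P.Ex (fun ω => ∑ v, wt v * ∑ i, β ω v i * (post P N k (t + 1) ω v i - post P N k t ω v i)) ≤
      K * P.Ex (fun ω => T.mv wt (fun v => (N t ω v : ℝ)) (fun v => (N (t + 1) ω v : ℝ)))

theorem anchorH : True := by
  have := @LL.eq_1; have := @cc.eq_1; have := @th.eq_1; have := @clp.eq_1; have := @cls.eq_1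
  have := @AA.eq_1; have := @BB.eq_1; have := @prj.eq_1; have := @MM.eq_1; have := @Gam.eq_1
  have := @ZZ.eq_1; have := @ps.eq_1; have := @al.eq_1; have := @cand.eq_1; have := @hv.eq_1
  have := @lt.eq_1; have := @dd.eq_1; have := @DD.eq_1; have := @ee.eq_1; have := @ss.eq_1
  have := @gt.eq_1; have := @GG.eq_1; have := @rt.eq_1; have := @qt.eq_1; have := @dfc.eq_1
  have := @zr.eq_1; have := @zr.eq_2; have := @zr.eq_def; have := @zz.eq_1; have := @keep.eq_1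
  have := @q0.eq_1; have := @nr'.eq_1; have := @na.eq_1; have := @upd.eq_1; have := @kap.eq_1
  have := @psi.eq_1; have := @Phi.eq_1; have := @ev.eq_1; have := @eta.eq_1; have := @eps.eq_1
  have := @sig.eq_1; have := @post.eq_1
  trivial

end Crest.Agent.KS.H
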